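import Vale.Agent.P092GP.Defs
import Vale.Agent.P092.UN.St
import Vale.Agent.P092.UN.StT

/-!
P092, group package: the linear package over a local field. Definitions.
-/

set_option autoImplicit false
set_option linter.all false

namespace Vale.Agent.P092GP

open Matrix Vale.Agent.P183CH

namespace LD

variable {k G : Type} [NontriviallyNormedField k] [Group G] [TopologicalSpace G] (L : LD k G)

/-- The linear package over a local field: the centraliser of the torus is compact modulo it. -/
structure LP : Prop where
  ok : L.Ok
  prop : ProperSpace k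
  loc : P092.UN.LocK k
  emb : Topology.IsEmbedding L.ρ
  cpt : ∃ C : Set G, IsCompact C ∧ C ⊆ L.Z0 ∧ ∀ z ∈ L.Z0, ∃ s ∈ L.S, ∃ c ∈ C, z = s * c

/-- The almost simple case: `Gp` is closed, has a finite central centraliser, and groups with property (T)
have a finite image in `G / Gp`. -/
structure LS : Prop where
  lp : L.LP
  closed : IsClosed (L.Gp : Set G)
  cfin : Set.Finite {g : G | ∀ u ∈ L.Gp, g * u = u * g}
  cent : ∀ g : G, (∀ u ∈ L.Gp, g * u = u * g) → g ∈ Subgroup.center G
  quo : ∀ (Γ : Type) [Group Γ], P092.UN.HasT Γ → ∀ f : Γ →* G, (L.Gp.comap f).FiniteIndex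

end LD

end Vale.Agent.P092GP
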