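import Vale.Agent.P092GP.Chart

/-!
P092, group package: representatives of the Weyl group, Bruhat decomposition, parabolic subgroups.
-/

set_option autoImplicit false
set_option linter.all false

namespace Vale.Agent.P092GP

open Matrix Vale.Agent.P183CH

/-- The degrees which are mapped into `F` by `w`. -/
def dW {R : RS} (w : R.Aut) (F : AddSubsemigroup R.Q) : AddSubsemigroup R.Q where
  carrier := {μ | w μ ∈ F}
  add_mem' := fun {a b} c d => show w (a + b) ∈ F from map_add w a b ▸ F.add_mem c d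

theorem mem_dW {R : RS} {w : R.Aut} {F : AddSubsemigroup R.Q} {μ : R.Q} : μ ∈ dW w F ↔ w μ ∈ F :=
  Iff.rfl

namespace LD

variable {k G : Type} [Field k] [Group G] {L : LD k G} {g g' n n' u u' v z : G} {w w' : L.R.Aut}
  {h h' : Fin L.R.r → ℝ} {γ : L.R.Q} {i j : Fin L.R.r} {J : Set (Fin L.R.r)}
  {F F' : AddSubsemigroup L.R.Q}

variable (L) in
/-- Representatives of the simple reflections. -/
noncomputable def nn (i : Fin L.R.r) : G := Classical.epsilon fun n => ∃ u ∈ L.X (L.R.α i),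
  u ≠ 1 ∧ ∃ v ∈ L.X (-L.R.α i), ∃ v' ∈ L.X (-L.R.α i), n = v * u * v' ∧ L.Rep n (L.R.sE i)

variable (L) in
/-- Products of representatives. -/
noncomputable def nd (l : List (Fin L.R.r)) : G := (l.map L.nn).prod

variable (L) in
/-- The subgroup generated by the root groups of the simple roots in `J` and their opposites. -/
def GJ (J : Set (Fin L.R.r)) : Subgroup G := ⨆ j ∈ J, (L.X (L.R.α j) ⊔ L.X (-L.R.α j))

variable (L) in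
/-- The representatives of the elements of `W_J`. -/
def NJ (J : Set (Fin L.R.r)) : Subgroup G where
  carrier := {n | ∃ w ∈ L.R.WJ J, L.Rep n w}
  one_mem' := ⟨1, one_mem _, rep_one.2 (one_mem _)⟩
  mul_mem' := fun ⟨w, a, b⟩ ⟨w', a', b'⟩ => ⟨w * w', mul_mem a a', b.mul b'⟩
  inv_mem' := fun ⟨w, a, b⟩ => ⟨w⁻¹, inv_mem a, b.inv⟩

variable (L) in
/-- The part of `Up` which `w` makes negative. -/
def Uw (w : L.R.Aut) : Subgroup G := UD L.wt L.ρ (dPos _ ⊓ dW w (dNeg _))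

variable (L) in
/-- The big cell. -/
def Ω : Set G := {g | ∃ v ∈ L.Um, ∃ z ∈ L.Z0, ∃ u ∈ L.Up, g = v * z * u}

theorem nd_nil : L.nd [] = 1 := rfl

theorem nd_cons (i : Fin L.R.r) (l : List (Fin L.R.r)) : L.nd (i :: l) = L.nn i * L.nd l := by
  simp [nd]

theorem nd_append (l l' : List (Fin L.R.r)) : L.nd (l ++ l') = L.nd l * L.nd l' := by simp [nd]

theorem nd_single (i : Fin L.R.r) : L.nd [i] = L.nn i := by simp [nd]

theorem X_le_GJ' (e : j ∈ J) : L.X (L.R.α j) ≤ L.GJ J :=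
  le_sup_left.trans (le_iSup₂ (f := fun j (_ : j ∈ J) => L.X (L.R.α j) ⊔ L.X (-L.R.α j)) j e)

theorem X_le_GJ'' (e : j ∈ J) : L.X (-L.R.α j) ≤ L.GJ J :=
  le_sup_right.trans (le_iSup₂ (f := fun j (_ : j ∈ J) => L.X (L.R.α j) ⊔ L.X (-L.R.α j)) j e)

theorem GJ_le {K : Subgroup G} (a : ∀ j ∈ J, L.X (L.R.α j) ≤ K) (b : ∀ j ∈ J, L.X (-L.R.α j) ≤ K) :
    L.GJ J ≤ K := iSup₂_le fun j e => sup_le (a j e) (b j e)

theorem GJ_le_LJ (J : Set (Fin L.R.r)) : L.GJ J ≤ L.LJ J :=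
  GJ_le (fun _ e => X_le_LJ (RS.In_α e)) fun _ e => X_le_LJ (RS.In_α e).neg

theorem Z0_le_NJ (J : Set (Fin L.R.r)) : L.Z0 ≤ L.NJ J := fun _ a => ⟨1, one_mem _, rep_one.2 a⟩

theorem Uw_le (w : L.R.Aut) : L.Uw w ≤ L.Up := UD_mono inf_le_left

theorem Rep.conj_Uw (a : L.Rep n w) (b : u ∈ L.Uw w) : n * u * n⁻¹ ∈ L.Um :=
  a.conj_UD b fun _ c => c.2

theorem mem_UJ : u ∈ L.UJ J ↔ u ∈ UD L.wt L.ρ (dPos _ ⊓ (dIn J).toAddSubsemigroup) :=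
  ⟨fun a => UD_of_PD a.1 a.2 fun _ b c => ⟨b, c⟩,
    fun a => ⟨UD_mono inf_le_left a, UD_le_PD (F := _ ⊓ _) (fun _ c => c.2) a⟩⟩

theorem UJ_le (J : Set (Fin L.R.r)) : L.UJ J ≤ L.Up := inf_le_left

theorem Z0_conj_UJ (a : z ∈ L.Z0) (b : u ∈ L.UJ J) : z * u * z⁻¹ ∈ L.UJ J :=
  mem_UJ.2 (Z0_conj_UD a (mem_UJ.1 b))

namespace Ok

variable (H : L.Ok)
include H

theorem α_pos (i : Fin L.R.r) : 0 < L.R.α i := root_pos H.root (H.root.simple i) (RS.α_nonneg i)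

theorem weyl' (a : u ∈ L.X (L.R.α i)) (b : u ≠ 1) :
    ∃ v ∈ L.X (-L.R.α i), ∃ v' ∈ L.X (-L.R.α i), L.Rep (v * u * v') (L.R.sE i) := by
  rw [show ⇑(L.R.sE i) = L.R.s i from funext (H.root.sE_apply i)]
  exact H.weyl i u a b

theorem nn_spec (i : Fin L.R.r) : ∃ u ∈ L.X (L.R.α i), u ≠ 1 ∧ ∃ v ∈ L.X (-L.R.α i),
    ∃ v' ∈ L.X (-L.R.α i), L.nn i = v * u * v' ∧ L.Rep (L.nn i) (L.R.sE i) := by
  obtain ⟨u, a, b⟩ := H.exists_X i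
  obtain ⟨v, c, v', d, e⟩ := H.weyl' a b
  exact Classical.epsilon_spec (p := fun n => ∃ u ∈ L.X (L.R.α i), u ≠ 1 ∧ ∃ v ∈ L.X (-L.R.α i),
    ∃ v' ∈ L.X (-L.R.α i), n = v * u * v' ∧ L.Rep n (L.R.sE i)) ⟨_, u, a, b, v, c, v', d, rfl, e⟩

theorem rep_nn (i : Fin L.R.r) : L.Rep (L.nn i) (L.R.sE i) :=
  let ⟨_, _, _, _, _, _, _, _, e⟩ := H.nn_spec i
  e

theorem nn_mem (e : j ∈ J) : L.nn j ∈ L.GJ J := by
  obtain ⟨u, a, -, v, b, v', c, d, -⟩ := H.nn_spec j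
  exact d ▸ mul_mem (mul_mem (X_le_GJ'' e b) (X_le_GJ' e a)) (X_le_GJ'' e c)

theorem rep_nd (l : List (Fin L.R.r)) : L.Rep (L.nd l) (L.R.wd l) := by
  induction l with
  | nil => exact rep_one.2 (one_mem _)
  | cons i l ih => rw [nd_cons, RS.wd_cons]; exact (H.rep_nn i).mul ih

theorem exists_rep (a : w ∈ L.R.WJ J) : ∃ n ∈ L.GJ J, L.Rep n w := by
  obtain ⟨l, hl, rfl⟩ := H.root.exists_wd a
  refine ⟨_, list_prod_mem fun x hx => ?_, H.rep_nd l⟩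
  obtain ⟨i, hi, rfl⟩ := List.mem_map.1 hx
  exact H.nn_mem (hl i hi)

theorem rep_LJ (a : L.Rep n w) (b : w ∈ L.R.WJ J) : n ∈ L.LJ J :=
  sup_iff.2 fun x y c => by
    rw [ty_iff.1 a x y c]
    exact H.root.sub_In b _

theorem NJ_le_LJ (J : Set (Fin L.R.r)) : L.NJ J ≤ L.LJ J := fun _ ⟨_, a, b⟩ => H.rep_LJ b a

theorem X_le_GJ (a : γ ∈ L.R.Φ) (b : L.R.In J γ) : L.X γ ≤ L.GJ J := fun u c => by
  obtain ⟨w, hw, j, hj, rfl⟩ := H.root.exists_conj_J a b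
  obtain ⟨n, h1, h2⟩ := H.exists_rep hw
  have := h2.inv.conj_X c
  rw [RS.inv_app] at this
  simpa [mul_assoc] using mul_mem (mul_mem h1 (X_le_GJ' hj this)) (inv_mem h1)

theorem UJ_le_GJ (J : Set (Fin L.R.r)) : L.UJ J ≤ L.GJ J := fun u a =>
  H.UD_le' inf_le_left (by
    rintro γ b ⟨_, c, d, e, rfl⟩
    exact H.X_le_GJ b.1 fun i f => (mul_eq_zero.1 (c.2 i f)).resolve_left (by omega)) (mem_UJ.1 a)

theorem exists_n0 : ∃ w, L.R.Lg Set.univ w ∧ ∃ n ∈ L.GJ Set.univ, L.Rep n w :=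
  let ⟨w, a⟩ := H.root.exists_Lg Set.univ
  ⟨w, a, H.exists_rep a.1⟩

theorem lg_Up (a : L.Rep n w) (b : L.R.Lg Set.univ w) (c : u ∈ L.Up) : n * u * n⁻¹ ∈ L.Um :=
  a.conj_UD c fun _ d => map_lt_zero H.root b d

theorem lg_Um (a : L.Rep n w) (b : L.R.Lg Set.univ w) (c : u ∈ L.Um) : n * u * n⁻¹ ∈ L.Up :=
  a.conj_UD c fun _ d => map_pos_of_neg H.root b d

theorem lg_inv (a : L.Rep n w) (b : L.R.Lg Set.univ w) : L.Rep n⁻¹ w := H.root.Lg_inv b ▸ a.inv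

theorem GJ_univ : L.GJ Set.univ = L.Gp := by
  refine le_antisymm (GJ_le (fun j _ => (X_le_Up (H.α_pos j)).trans Up_le_Gp) fun j _ =>
    (X_le_Um (neg_lt_zero.2 (H.α_pos j))).trans Um_le_Gp) ?_
  have h1 : L.Up ≤ L.GJ Set.univ := UJ_univ (L := L) ▸ H.UJ_le_GJ _
  refine sup_le h1 fun u a => ?_
  obtain ⟨w, b, n, c, d⟩ := H.exists_n0
  simpa [mul_assoc] using mul_mem (mul_mem (inv_mem c) (h1 (H.lg_Um d b a))) c

theorem exists_rep' (a : w ∈ L.R.W) : ∃ n ∈ L.Gp, L.Rep n w := H.GJ_univ ▸ H.exists_rep a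

theorem X_le_Gp (a : γ ∈ L.R.Φ) : L.X γ ≤ L.Gp := H.GJ_univ ▸ H.X_le_GJ a (RS.In_univ γ)

/-- The axiom RGD2 for all roots. -/
theorem weyl_root (a : γ ∈ L.R.Φ) : ∃ w ∈ L.R.W, w γ = -γ ∧ w * w = 1 ∧ ∀ u ∈ L.X γ, u ≠ 1 →
    ∃ v ∈ L.X (-γ), ∃ v' ∈ L.X (-γ), L.Rep (v * u * v') w := by
  obtain ⟨w, hw, i, rfl⟩ := H.root.exists_conj a
  obtain ⟨n, -, hn⟩ := H.exists_rep hw
  refine ⟨w * L.R.sE i * w⁻¹, mul_mem (mul_mem hw (RS.sE_mem_W i)) (inv_mem hw), ?_, ?_,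
    fun u b c => ?_⟩
  · rw [RS.mul_app, RS.inv_app, H.root.mul_sE_α]
  · rw [mul_assoc, ← mul_assoc w⁻¹, ← mul_assoc w⁻¹, inv_mul_cancel, one_mul, ← mul_assoc,
      H.root.mul_sE_sE, mul_inv_cancel]
  have h1 := hn.inv.conj_X b
  rw [RS.inv_app] at h1
  obtain ⟨v, d, v', e, f⟩ := H.weyl' h1 fun f => c (conj_eq_one_iff.1 f)
  refine ⟨_, map_neg w _ ▸ hn.conj_X d, _, map_neg w _ ▸ hn.conj_X e, ?_⟩
  simpa [mul_assoc] using (hn.mul f).mul hn.inv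

theorem sign_dg (a : w ∈ L.R.W) (j : Fin L.m) : 0 < w (L.dg j) ∨ w (L.dg j) < 0 := by
  obtain ⟨γ, b, c, d, e⟩ := H.dg_ray j
  rw [e, map_nsmul]
  exact (H.root.sign' a b.1).imp (fun f => nsmul_pos (root_pos H.root (H.root.map_mem a b.1) f) d.ne')
    fun f => nsmul_neg (root_neg H.root (H.root.map_mem a b.1) f) d.ne'

theorem split_w (a : w ∈ L.R.W) (hF : F ≤ dPos _) (b : u ∈ UD L.wt L.ρ F) :
    ∃ x ∈ UD L.wt L.ρ (F ⊓ dW w (dPos _)), ∃ y ∈ UD L.wt L.ρ (F ⊓ dW w (dNeg _)), u = x * y :=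
  H.split hF (fun j _ => H.sign_dg a j) b

theorem split_w' (a : w ∈ L.R.W) (hF : F ≤ dPos _) (b : u ∈ UD L.wt L.ρ F) :
    ∃ x ∈ UD L.wt L.ρ (F ⊓ dW w (dNeg _)), ∃ y ∈ UD L.wt L.ρ (F ⊓ dW w (dPos _)), u = x * y :=
  H.split hF (fun j _ => (H.sign_dg a j).symm) b

theorem conj_UJ (a : L.Rep n w) (b : w ∈ L.R.WJ J)
    (c : u ∈ UD L.wt L.ρ (dPos _ ⊓ (dIn J).toAddSubsemigroup ⊓ dW w (dPos _))) :
    n * u * n⁻¹ ∈ L.UJ J :=
  mem_UJ.2 (a.conj_UD c fun _ d => ⟨d.2, H.root.map_In b d.1.2⟩)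

theorem conj_X_UJ (a : L.Rep n w) (b : w ∈ L.R.WJ J) (c : γ ∈ L.R.Φ) (d : L.R.In J γ)
    (e : 0 ≤ w γ) (f : u ∈ L.X γ) : n * u * n⁻¹ ∈ L.UJ J :=
  ⟨X_le_Up (root_pos H.root (H.root.map_mem (RS.WJ_le J b) c) e) (a.conj_X f),
    X_le_LJ (H.root.map_In b d) (a.conj_X f)⟩

section gen

variable {K : Subgroup G}
  (h2 : ∀ j ∈ J, ∀ u ∈ L.X (L.R.α j), u ≠ 1 → ∀ v ∈ L.X (-L.R.α j), ∀ v' ∈ L.X (-L.R.α j),
    L.Rep (v * u * v') (L.R.sE j) → v * u * v' ∈ K)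
include h2

/-- The axiom of Tits systems. -/
theorem cell (a : L.Rep n w) (b : w ∈ L.R.WJ J) (c : n ∈ K) (hj : j ∈ J) (a' : L.Rep n' (L.R.sE j))
    (c' : n' ∈ K) (d : u ∈ L.UJ J) : ∃ x ∈ L.UJ J, ∃ m ∈ K, ∃ y ∈ L.UJ J, n * u * n' = x * m * y ∧
      (m = n * n' ∨ w (L.R.α j) ≤ 0 ∧ L.Rep m w) := by
  have s1 := H.root.simple j
  have a'' : L.Rep n'⁻¹ (L.R.sE j) := H.root.sE_inv j ▸ a'.inv
  obtain ⟨x, hx, y, hy, rfl⟩ := H.split_w' (RS.sE_mem_W j) inf_le_left (mem_UJ.1 d)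
  have hx' : x ∈ L.X (L.R.α j) := UD_mono (F := _ ⊓ _ ⊓ _) (fun _ e => mem_ray_of_sE H.root e.1.1 (le_of_lt e.2)) hx
  have hy' := H.conj_UJ a'' (RS.sE_mem hj) hy
  rcases H.root.sign' (RS.WJ_le J b) s1 with e | e
  · exact ⟨_, H.conj_X_UJ a b s1 (RS.In_α hj) e hx', _, mul_mem c c', _, hy', by group, Or.inl rfl⟩
  by_cases f : x = 1
  · exact ⟨1, one_mem _, _, mul_mem c c', _, hy', by rw [f]; group, Or.inl rfl⟩
  obtain ⟨v, hv, v', hv', g⟩ := H.weyl' hx' f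
  refine ⟨_, H.conj_X_UJ a b (H.root.neg_mem s1) (RS.In_α hj).neg (by rwa [map_neg, neg_nonneg])
    (inv_mem hv), _, mul_mem (mul_mem c (h2 j hj x hx' f v hv v' hv' g)) c', _,
    mul_mem (H.conj_X_UJ a'' (RS.sE_mem hj) (H.root.neg_mem s1) (RS.In_α hj).neg
      (by rw [map_neg, H.root.sE_α, neg_neg]; exact RS.α_nonneg j) (inv_mem hv')) hy',
    by group, Or.inr ⟨e, ?_⟩⟩
  simpa only [H.root.mul_sE_sE] using (a.mul g).mul a'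

theorem nn_mem_gen (hj : j ∈ J) : L.nn j ∈ K := by
  obtain ⟨u, a, b, v, c, v', d, e, f⟩ := H.nn_spec j
  exact e ▸ h2 j hj u a b v c v' d (e ▸ f)

theorem bruhat_gen (h1 : K ≤ L.NJ J) (a : g ∈ K ⊔ L.GJ J) :
    ∃ u ∈ L.UJ J, ∃ n ∈ K, ∃ u' ∈ L.UJ J, g = u * n * u' := by
  let C : G → Prop := fun g => ∃ u ∈ L.UJ J, ∃ n ∈ K, ∃ u' ∈ L.UJ J, g = u * n * u'
  let A : Subgroup G :=
    { carrier := {g | ∀ c, C c ↔ C (c * g)}
      one_mem' := fun c => by rw [mul_one]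
      mul_mem' := fun a b c => by rw [← mul_assoc, ← b, ← a]
      inv_mem' := fun {x} a c => by rw [a (c * x⁻¹), inv_mul_cancel_right] }
  have c0 : ∀ B : Subgroup G, (∀ g ∈ B, ∀ c, C c → C (c * g)) → B ≤ A := fun B e g b c =>
    ⟨e g b c, fun d => by simpa using e _ (inv_mem b) _ d⟩
  have c1 : ∀ g ∈ L.UJ J, ∀ c, C c → C (c * g) := by
    rintro g hg _ ⟨u, hu, n, hn, u', hu', rfl⟩
    exact ⟨u, hu, n, hn, _, mul_mem hu' hg, mul_assoc _ _ _⟩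
  have c2 : ∀ g ∈ K, g ∈ L.Z0 → ∀ c, C c → C (c * g) := by
    rintro g hg hz _ ⟨u, hu, n, hn, u', hu', rfl⟩
    exact ⟨u, hu, _, mul_mem hn hg, _, Z0_conj_UJ (inv_mem hz) hu', by group⟩
  have c3 : ∀ j ∈ J, ∀ c, C c → C (c * L.nn j) := by
    rintro j hj _ ⟨u, hu, n, hn, u', hu', rfl⟩
    obtain ⟨w, b, e⟩ := h1 hn
    obtain ⟨x, hx, m, hm, y, hy, f, -⟩ :=
      H.cell h2 e b hn hj (H.rep_nn j) (H.nn_mem_gen h2 hj) hu'
    exact ⟨_, mul_mem hu hx, m, hm, y, hy, by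
      rw [mul_assoc u x, mul_assoc u (x * m), ← f]; group⟩
  have c4 : ∀ g ∈ K, ∀ c, C c → C (c * g) := by
    intro g hg c hc
    obtain ⟨w, b, e⟩ := h1 hg
    obtain ⟨l, hl, rfl⟩ := H.root.exists_wd b
    have : ∀ c, C c → L.nd l ∈ K ∧ C (c * L.nd l) := by
      clear e b
      induction l with
      | nil => exact fun c d => ⟨one_mem _, by rwa [nd_nil, mul_one]⟩
      | cons i l ih =>
        intro c d
        have := ih (fun j e => hl j (List.mem_cons_of_mem _ e)) _ (c3 i (hl i List.mem_cons_self) c d)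
        rw [nd_cons, ← mul_assoc]
        exact ⟨mul_mem (H.nn_mem_gen h2 (hl i List.mem_cons_self)) this.1, this.2⟩
    simpa [mul_assoc] using (this _ (c2 _ (mul_mem hg (inv_mem (this c hc).1))
      (e.div (H.rep_nd l)).1 c hc)).2
  have c5 : ∀ j ∈ J, L.X (L.R.α j) ≤ L.UJ J := fun j hj =>
    le_inf (X_le_Up (H.α_pos j)) (X_le_LJ (RS.In_α hj))
  have : K ⊔ L.GJ J ≤ A := sup_le (c0 _ c4) (GJ_le (fun j hj => (c5 j hj).trans (c0 _ c1))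
    fun j hj v hv => by
      have h3 := (H.rep_nn j).conj_X hv
      rw [map_neg, H.root.sE_α, neg_neg] at h3
      have h4 := c0 _ c4 (H.nn_mem_gen h2 hj)
      simpa [mul_assoc] using mul_mem (mul_mem (inv_mem h4) (c0 _ c1 (c5 j hj h3))) h4)
  simpa using (this a 1).1 ⟨1, one_mem _, 1, one_mem _, 1, one_mem _, by simp⟩

end gen

theorem bruhat0 (g : G) : ∃ u ∈ L.Up, ∃ n, ∃ w ∈ L.R.W, L.Rep n w ∧ ∃ u' ∈ L.Up, g = u * n * u' := by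
  obtain ⟨u, a, n, ⟨w, b, c⟩, u', d, e⟩ := H.bruhat_gen (J := Set.univ) (K := L.NJ Set.univ) (g := g)
    (fun j _ _ _ _ _ _ _ _ a => ⟨_, RS.sE_mem_W j, a⟩) le_rfl (by
      rw [H.GJ_univ]
      exact sup_le_sup_right (Z0_le_NJ _) _ (H.gen ▸ Subgroup.mem_top g))
  exact ⟨u, a.1, n, w, b, c, u', d.1, e⟩

/-- **Bruhat decomposition.** -/
theorem bruhat (g : G) :
    ∃ u ∈ L.Up, ∃ n, ∃ w ∈ L.R.W, L.Rep n w ∧ ∃ u' ∈ L.Uw w, g = u * n * u' := by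
  obtain ⟨u, a, n, w, b, c, u', d, rfl⟩ := H.bruhat0 g
  obtain ⟨x, hx, y, hy, rfl⟩ := H.split_w b le_rfl d
  exact ⟨_, mul_mem a (c.conj_UD hx fun _ e => e.2), n, w, b, c, y, hy, by group⟩

/-- **Birkhoff decomposition.** -/
theorem birkhoff (g : G) :
    ∃ v ∈ L.Um, ∃ n, ∃ w ∈ L.R.W, L.Rep n w ∧ ∃ u ∈ L.Up, g = v * n * u := by
  obtain ⟨w0, a0, n0, -, b0⟩ := H.exists_n0
  obtain ⟨u, a, n, w, b, c, u', d, e⟩ := H.bruhat0 (n0⁻¹ * g)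
  exact ⟨_, H.lg_Up b0 a0 a, _, _, mul_mem a0.1 b, b0.mul c, u', d, by
    rw [inv_mul_eq_iff_eq_mul.1 e]; group⟩

theorem split_h (h0 : 0 ≤ h) (a : u ∈ L.Up) :
    (∃ x ∈ L.U h ⊓ L.Up, ∃ y ∈ L.UJ {j | h j = 0}, u = x * y) ∧
      ∃ y ∈ L.UJ {j | h j = 0}, ∃ x ∈ L.U h ⊓ L.Up, u = y * x := by
  have e : ∀ j, L.dg j ∈ dPos _ → L.dg j ∈ dGt h ∨
      L.dg j ∈ (dIn {j | h j = 0}).toAddSubsemigroup := fun j b =>
    (pr_nonneg (le_of_lt b) h0).lt_or_eq.imp id fun c => (pr_eq_zero_iff (le_of_lt b) h0).1 c.symm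
  obtain ⟨x, hx, y, hy, f⟩ := H.split le_rfl e a
  obtain ⟨y', hy', x', hx', f'⟩ := H.split le_rfl (fun j b => (e j b).symm) a
  exact ⟨⟨x, ⟨UD_mono inf_le_right hx, UD_mono inf_le_left hx⟩, y, mem_UJ.2 hy, f⟩,
    y', mem_UJ.2 hy', x', ⟨UD_mono inf_le_right hx', UD_mono inf_le_left hx'⟩, f'⟩

theorem rep_WJ (h0 : 0 ≤ h) (a : L.Rep n w) (b : w ∈ L.R.W) (c : n ∈ L.P h) :
    w ∈ L.R.WJ {j | h j = 0} := mem_WJ_of_tw H.root b h0 (H.rep_tw a c)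

theorem P_decomp0 (h0 : 0 ≤ h) (a : g ∈ L.P h) : ∃ x ∈ L.U h ⊓ L.Up, ∃ u ∈ L.UJ {j | h j = 0},
    ∃ n ∈ L.NJ {j | h j = 0}, ∃ u' ∈ L.UJ {j | h j = 0}, ∃ y ∈ L.U h ⊓ L.Up,
      g = x * (u * n * u') * y := by
  obtain ⟨u, b, n, w, c, d, u', e, rfl⟩ := H.bruhat0 g
  have f : ∀ u ∈ L.Up, u ∈ L.P h := fun u a => B_le_P h0 (Up_le_B a)
  have f' := H.rep_WJ h0 d c ((Subgroup.mul_mem_cancel_left _ (f u b)).1
    ((Subgroup.mul_mem_cancel_right _ (f u' e)).1 a))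
  obtain ⟨⟨x, hx, y, hy, rfl⟩, -⟩ := H.split_h h0 b
  obtain ⟨-, y', hy', x', hx', rfl⟩ := H.split_h h0 e
  exact ⟨x, hx, y, hy, n, ⟨w, f', d⟩, y', hy', x', hx', by group⟩

theorem U_le_Up (h0 : 0 ≤ h) : L.U h ≤ L.Up := fun g a => by
  obtain ⟨x, hx, u, hu, n, hn, u', hu', y, hy, rfl⟩ := H.P_decomp0 h0 (U_le_P h a)
  rw [H.eq_one_of_U (g := u * n * u') ((Subgroup.mul_mem_cancel_left _ hx.1).1
    ((Subgroup.mul_mem_cancel_right _ hy.1).1 a)) (Z_le_P _ (Z_neg (L := L) h ▸ LJ_le_Z h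
      (mul_mem (mul_mem hu.2 (H.NJ_le_LJ _ hn)) hu'.2))), mul_one]
  exact mul_mem hx.2 hy.2

/-- Bruhat decomposition of the centraliser of a dominant cocharacter. -/
theorem Z_bruhat (h0 : 0 ≤ h) (a : g ∈ L.Z h) : ∃ u ∈ L.UJ {j | h j = 0},
    ∃ n ∈ L.NJ {j | h j = 0}, ∃ u' ∈ L.UJ {j | h j = 0}, g = u * n * u' := by
  obtain ⟨x, hx, u, hu, n, hn, u', hu', y, hy, e⟩ := H.P_decomp0 h0 (Z_le_P h a)
  have b := LJ_le_Z h (mul_mem (mul_mem hu.2 (H.NJ_le_LJ _ hn)) hu'.2)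
  refine ⟨u, hu, n, hn, u', hu', (H.ldu_uniq (one_mem _) (one_mem _) a b (one_mem _)
    (mul_mem (conj_U (Z_le_P h (inv_mem b)) hx.1) hy.1) ?_).2.1⟩
  rw [e]
  group

theorem Z_eq_LJ (h0 : 0 ≤ h) : L.Z h = L.LJ {j | h j = 0} :=
  le_antisymm (fun g a => by
    obtain ⟨u, hu, n, hn, u', hu', rfl⟩ := H.Z_bruhat h0 a
    exact mul_mem (mul_mem hu.2 (H.NJ_le_LJ _ hn)) hu'.2) (LJ_le_Z h)

/-- Bruhat decomposition of the standard Levi subgroups. -/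
theorem LJ_bruhat (a : g ∈ L.LJ J) :
    ∃ u ∈ L.UJ J, ∃ n ∈ L.NJ J, ∃ u' ∈ L.UJ J, g = u * n * u' := by
  classical
  have e : {j | (if j ∈ J then 0 else 1 : ℝ) = 0} = J := by ext j; simp
  have := H.Z_bruhat (h := fun j => if j ∈ J then 0 else 1) (g := g)
    (fun j => by dsimp only; split_ifs <;> simp) (LJ_le_Z _ (by rwa [e]))
  rwa [e] at this

theorem LJ_eq (J : Set (Fin L.R.r)) : L.LJ J = L.Z0 ⊔ L.GJ J :=
  le_antisymm (fun g a => by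
    obtain ⟨u, hu, n, ⟨w, b, c⟩, u', hu', rfl⟩ := H.LJ_bruhat a
    obtain ⟨n', d, e⟩ := H.exists_rep b
    refine mul_mem (mul_mem (Subgroup.mem_sup_right (H.UJ_le_GJ J hu)) ?_)
      (Subgroup.mem_sup_right (H.UJ_le_GJ J hu'))
    simpa using mul_mem (Subgroup.mem_sup_left (c.div e).1) (Subgroup.mem_sup_right d))
    (sup_le (Z0_le_LJ J) (GJ_le_LJ J))

/-- **Levi decomposition.** -/
theorem P_decomp (a : g ∈ L.P h) : ∃ u ∈ L.U h, ∃ z ∈ L.Z h, g = u * z := by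
  obtain ⟨w, b, c⟩ := exists_tw H.root Set.univ h
  obtain ⟨n, -, d⟩ := H.exists_rep b
  obtain ⟨x, hx, u, hu, m, hm, u', hu', y, hy, e⟩ :=
    H.P_decomp0 (fun j => c j trivial) (d.conj_P' a)
  have f := LJ_le_Z _ (mul_mem (mul_mem hu.2 (H.NJ_le_LJ _ hm)) hu'.2)
  refine ⟨_, d.conj_U (mul_mem hx.1 (conj_U (Z_le_P _ f) hy.1)), _, d.conj_Z f, ?_⟩
  rw [show g = n * (n⁻¹ * g * n) * n⁻¹ by group, e]
  group

theorem P_decomp' (a : g ∈ L.P h) : ∃ z ∈ L.Z h, ∃ u ∈ L.U h, g = z * u := by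
  obtain ⟨u, b, z, c, rfl⟩ := H.P_decomp a
  exact ⟨z, c, _, conj_U (Z_le_P h (inv_mem c)) b, by group⟩

theorem U_eq (e : ∀ j, 0 < h j) : L.U h = L.Up :=
  le_antisymm (H.U_le_Up fun j => (e j).le) (Up_le_U e)

theorem Z_eq0 (e : ∀ j, 0 < h j) : L.Z h = L.Z0 := by
  rw [H.Z_eq_LJ fun j => (e j).le,
    show {j | h j = 0} = ∅ from Set.eq_empty_of_forall_notMem fun j => (e j).ne', LJ_empty]

theorem P_eq (e : ∀ j, 0 < h j) : L.P h = L.B :=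
  le_antisymm (fun g a => by
    obtain ⟨u, b, z, c, rfl⟩ := H.P_decomp a
    exact mul_mem (Up_le_B (H.U_eq e ▸ b)) (Z0_le_B (H.Z_eq0 e ▸ c))) (B_le_P fun j => (e j).le)

theorem tw_lg (a : L.R.Lg Set.univ w) (h0 : 0 ≤ h) : 0 ≤ tw w (-h) := fun j => by
  rw [tw, pr_neg', Pi.zero_apply, neg_nonneg]
  exact pr_nonpos (a.2 j trivial) h0

theorem U_le_Um (h0 : 0 ≤ h) : L.U (-h) ≤ L.Um := fun g a => by
  obtain ⟨w, b, n, -, c⟩ := H.exists_n0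
  simpa [mul_assoc] using H.lg_Up c b (H.U_le_Up (H.tw_lg b h0) (c.conj_U' a))

theorem U_eq' (e : ∀ j, 0 < h j) : L.U (-h) = L.Um :=
  le_antisymm (H.U_le_Um fun j => (e j).le) (Um_le_U e)

theorem P_eq' (e : ∀ j, 0 < h j) : L.P (-h) = L.Bm :=
  le_antisymm (fun g a => by
    obtain ⟨u, b, z, c, rfl⟩ := H.P_decomp a
    exact mul_mem (Um_le_Bm (H.U_eq' e ▸ b)) (Z0_le_Bm (H.Z_eq0 e ▸ Z_neg (L := L) h ▸ c)))
    (Bm_le_P fun j => (e j).le)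

theorem mem_B : g ∈ L.B ↔ ∃ z ∈ L.Z0, ∃ u ∈ L.Up, g = z * u := by
  have e : ∀ j : Fin L.R.r, (0 : ℝ) < (1 : Fin L.R.r → ℝ) j := fun _ => one_pos
  refine ⟨fun a => ?_, fun ⟨z, a, u, b, c⟩ => c ▸ mul_mem (Z0_le_B a) (Up_le_B b)⟩
  rw [← H.Z_eq0 e, ← H.U_eq e]
  exact H.P_decomp' (H.P_eq e ▸ a)

theorem mem_B' : g ∈ L.B ↔ ∃ u ∈ L.Up, ∃ z ∈ L.Z0, g = u * z := by
  have e : ∀ j : Fin L.R.r, (0 : ℝ) < (1 : Fin L.R.r → ℝ) j := fun _ => one_pos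
  refine ⟨fun a => ?_, fun ⟨z, a, u, b, c⟩ => c ▸ mul_mem (Up_le_B a) (Z0_le_B b)⟩
  rw [← H.Z_eq0 e, ← H.U_eq e]
  exact H.P_decomp (H.P_eq e ▸ a)

theorem mem_Bm : g ∈ L.Bm ↔ ∃ v ∈ L.Um, ∃ z ∈ L.Z0, g = v * z := by
  have e : ∀ j : Fin L.R.r, (0 : ℝ) < (1 : Fin L.R.r → ℝ) j := fun _ => one_pos
  refine ⟨fun a => ?_, fun ⟨z, a, u, b, c⟩ => c ▸ mul_mem (Um_le_Bm a) (Z0_le_Bm b)⟩
  rw [← H.Z_eq0 e, ← H.U_eq' e, ← Z_neg]
  exact H.P_decomp (H.P_eq' e ▸ a)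

/-- Uniqueness in the big cell. -/
theorem cell_uniq {v' z' : G} (a : v ∈ L.Um) (a' : v' ∈ L.Um) (b : z ∈ L.Z0) (b' : z' ∈ L.Z0)
    (c : u ∈ L.Up) (c' : u' ∈ L.Up) (e : v * z * u = v' * z' * u') : v = v' ∧ z = z' ∧ u = u' :=
  have f : ∀ j : Fin L.R.r, (0 : ℝ) < (1 : Fin L.R.r → ℝ) j := fun _ => one_pos
  H.ldu_uniq (Um_le_U f a) (Um_le_U f a') (Z0_le_Z _ b) (Z0_le_Z _ b') (Up_le_U f c)
    (Up_le_U f c') e

theorem rep_B (a : L.Rep n w) (b : w ∈ L.R.W) (c : n ∈ L.B) : w = 1 :=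
  eq_one_of_tw H.root b (h := 1) (fun _ => one_pos) (H.rep_tw a (B_le_P zero_le_one c))

/-- A representative in the big cell centralises the torus. -/
theorem rep_cell (a : L.Rep (v * g) w) (b : w ∈ L.R.W) (c : v ∈ L.Um) (d : g ∈ L.B) :
    v = 1 ∧ w = 1 := by
  have f : ∀ j : Fin L.R.r, (0 : ℝ) < (1 : Fin L.R.r → ℝ) j := fun _ => one_pos
  have e := H.P_eq f ▸ a.mem_P (Um_le_U f c) (B_le_P zero_le_one d)
  exact ⟨H.eq_one_of_Um c ((Subgroup.mul_mem_cancel_right _ d).1 e), H.rep_B a b e⟩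

/-- The double cosets are distinct. -/
theorem cell_eq {x y : G} (a : L.Rep n w) (a' : L.Rep n' w') (b : w ∈ L.R.W) (b' : w' ∈ L.R.W)
    (c : x ∈ L.B) (d : y ∈ L.B) (e : n' = x * n * y) : w' = w := by
  obtain ⟨u, hu, z, hz, rfl⟩ := H.mem_B'.1 c
  have a1 := a.Z0_mul hz
  obtain ⟨p, hp, q, hq, rfl⟩ := H.split_w' (inv_mem b) le_rfl hu
  have := (H.rep_cell (w := w⁻¹ * w') (by
    rw [show (z * n)⁻¹ * p * (z * n)⁻¹⁻¹ * ((z * n)⁻¹ * q * (z * n)⁻¹⁻¹ * y) = (z * n)⁻¹ * n' by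
      rw [e]; group]
    exact a1.inv.mul a') (mul_mem (inv_mem b) b') (a1.inv.conj_Uw hp)
    (mul_mem (Up_le_B (a1.inv.conj_UD hq fun _ e => e.2)) d)).2
  exact (inv_mul_eq_one.1 this).symm

theorem bruhat_uniq {u₁ u₂ v₁ v₂ : G} (a : L.Rep n w) (a' : L.Rep n' w') (b : w ∈ L.R.W)
    (b' : w' ∈ L.R.W) (c₁ : u₁ ∈ L.Up) (c₂ : u₂ ∈ L.Up) (d₁ : v₁ ∈ L.Uw w) (d₂ : v₂ ∈ L.Uw w')
    (e : u₁ * n * v₁ = u₂ * n' * v₂) : w = w' ∧ u₁ = u₂ ∧ n = n' ∧ v₁ = v₂ := by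
  obtain rfl : w' = w := H.cell_eq a a' b b' (Up_le_B (mul_mem (inv_mem c₂) c₁))
    (Up_le_B (mul_mem (Uw_le _ d₁) (inv_mem (Uw_le _ d₂)))) (by
      rw [← mul_assoc, mul_assoc u₂⁻¹, mul_assoc u₂⁻¹, e]; group)
  obtain ⟨e1, e2, e3⟩ := H.cell_uniq (a.conj_Uw (mul_mem d₁ (inv_mem d₂))) (one_mem _)
    (a.div a').1 (one_mem _) (mul_mem (inv_mem c₂) c₁) (one_mem _) (by
      rw [show n * (v₁ * v₂⁻¹) * n⁻¹ * (n * n'⁻¹) = u₁⁻¹ * (u₁ * n * v₁) * v₂⁻¹ * n'⁻¹ by group, e]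
      group)
  exact ⟨rfl, (inv_mul_eq_one.1 e3).symm, mul_inv_eq_one.1 e2, mul_inv_eq_one.1 (by simpa using e1)⟩

theorem cell_eq' (a : L.Rep n w) (a' : L.Rep n' w') (b : w ∈ L.R.W) (b' : w' ∈ L.R.W)
    (c : u ∈ L.Up) (d : u' ∈ L.Up) (e : n' = u * n * u') : n' = n := by
  obtain ⟨x, hx, y, hy, rfl⟩ := H.split_w b le_rfl d
  exact (H.bruhat_uniq a' a b' b (one_mem _) (mul_mem c (a.conj_UD hx fun _ e => e.2)) (one_mem _)
    hy (by rw [e]; group)).2.2.1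

/-- An element which conjugates `Up` into `B` lies in `B`. -/
theorem mem_B_of_conj (a : ∀ u ∈ L.Up, g * u * g⁻¹ ∈ L.B) : g ∈ L.B := by
  obtain ⟨u, b, n, w, c, d, u', e, rfl⟩ := H.bruhat0 g
  suffices w = 1 from mul_mem (mul_mem (Up_le_B b) (Z0_le_B (rep_one.1 (this ▸ d)))) (Up_le_B e)
  by_contra f
  obtain ⟨j, -, hj⟩ := H.root.exists_neg c f
  obtain ⟨x, hx, hx1⟩ := H.exists_X j
  refine hx1 (conj_eq_one_iff.1 (H.eq_one_of_Um (X_le_Um (root_neg H.root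
    (H.root.map_mem c (H.root.simple j)) hj) (d.conj_X hx)) ?_))
  simpa [mul_assoc] using mul_mem (mul_mem (inv_mem (Up_le_B b)) (a _ (mul_mem (mul_mem (inv_mem e)
    (X_le_Up (H.α_pos j) hx)) e))) (Up_le_B b)

/-- The torus of the group generated by the root groups of type `J`. -/
theorem GJ_inf_Z0 {T : Subgroup G} (h0 : T ≤ L.Z0)
    (h1 : ∀ j ∈ J, ∀ t ∈ T, L.nn j * t * (L.nn j)⁻¹ ∈ T)
    (h2 : ∀ j ∈ J, ∀ u ∈ L.X (L.R.α j), u ≠ 1 → ∀ v ∈ L.X (-L.R.α j), ∀ v' ∈ L.X (-L.R.α j),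
      L.Rep (v * u * v') (L.R.sE j) → v * u * v' * (L.nn j)⁻¹ ∈ T) : L.GJ J ⊓ L.Z0 ≤ T := by
  have h3 : ∀ j ∈ J, L.nn j * L.nn j ∈ T := fun j hj => by
    obtain ⟨u, a, b, v, c, v', d, e, f⟩ := H.nn_spec j
    have e' : v'⁻¹ * u⁻¹ * v⁻¹ = (L.nn j)⁻¹ := by rw [e]; group
    have := h2 j hj _ (inv_mem a) (inv_ne_one.2 b) _ (inv_mem d) _ (inv_mem c)
      (by rw [e', ← H.root.sE_inv]; exact f.inv)
    simpa [e'] using inv_mem this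
  have h4 : ∀ l : List (Fin L.R.r), (∀ i ∈ l, i ∈ J) → ∀ t ∈ T, L.nd l * t * (L.nd l)⁻¹ ∈ T := by
    intro l hl t ht
    induction l with
    | nil => simpa [nd_nil] using ht
    | cons i l ih =>
      simpa [nd_cons, mul_assoc] using
        h1 i (hl i List.mem_cons_self) _ (ih fun j e => hl j (List.mem_cons_of_mem _ e))
  have h5 : ∀ (q : ℕ) (l : List (Fin L.R.r)), l.length = q → (∀ i ∈ l, i ∈ J) → 1 = L.R.wd l →
      L.nd l ∈ T := by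
    intro q
    induction q using Nat.strong_induction_on with
    | _ q ih =>
    intro l hn hJ hl
    rcases List.eq_nil_or_concat' l with rfl | ⟨p, b, rfl⟩
    · exact one_mem _
    rw [RS.wd_append, RS.wd_single] at hl
    have e1 : L.R.wd p (L.R.α b) ≤ 0 := by
      have := H.root.mul_sE_α (L.R.wd p) b
      rw [← hl, RS.one_app] at this
      exact neg_nonneg.1 (this ▸ RS.α_nonneg b)
    obtain ⟨l₁, a, l₂, rfl, e2⟩ := H.root.exchange e1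
    rw [H.root.wd_exchange e2] at hl
    simp only [List.mem_append, List.mem_cons] at hJ
    have ha := hJ a (Or.inl (Or.inr (Or.inl rfl)))
    have e3 := ih _ (by rw [← hn]; simp) (l₁ ++ l₂) rfl (fun i hi => hJ i (by
      simp only [List.mem_append] at hi; tauto)) hl
    obtain ⟨u, c1, c2, v, c3, v', c4, c5, c6⟩ := H.nn_spec b
    have r := H.rep_nd l₂
    have e4 := h2 a ha _ (e2 ▸ r.conj_X c1) (fun f => c2 (conj_eq_one_iff.1 f)) _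
      (e2 ▸ map_neg (L.R.wd l₂) _ ▸ r.conj_X c3) _ (e2 ▸ map_neg (L.R.wd l₂) _ ▸ r.conj_X c4) (by
        have := (r.mul c6).mul r.inv
        rw [H.root.conj_sE (RS.wd_mem_W l₂) e2, mul_inv_cancel_right, c5] at this
        simpa [mul_assoc] using this)
    have e5 := mul_mem (h4 l₁ (fun i hi => hJ i (Or.inl (Or.inl hi))) _
      (mul_mem (h1 a ha _ e4) (h3 a ha))) e3
    rw [nd_append] at e5
    rw [nd_append, nd_append, nd_cons, nd_single, c5]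
    simpa only [mul_assoc, inv_mul_cancel_left, inv_mul_cancel, mul_one] using e5
  let K : Subgroup G :=
    { carrier := {g | ∃ t ∈ T, ∃ l : List (Fin L.R.r), (∀ i ∈ l, i ∈ J) ∧ g = t * L.nd l}
      one_mem' := ⟨1, one_mem _, [], by simp, by simp [nd_nil]⟩
      mul_mem' := by
        rintro _ _ ⟨t, ht, l, hl, rfl⟩ ⟨t', ht', l', hl', rfl⟩
        exact ⟨_, mul_mem ht (h4 l hl t' ht'), l ++ l', fun i hi =>
          (List.mem_append.1 hi).elim (hl i) (hl' i), by rw [nd_append]; group⟩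
      inv_mem' := by
        rintro _ ⟨t, ht, l, hl, rfl⟩
        have hl' : ∀ i ∈ l.reverse, i ∈ J := fun i hi => hl i (List.mem_reverse.1 hi)
        have e1 : 1 = L.R.wd (l.reverse ++ l) := by
          clear hl hl'
          induction l with
          | nil => rfl
          | cons i l ih =>
            rw [List.reverse_cons, RS.wd_append, RS.wd_append, RS.wd_single, RS.wd_cons,
              ← mul_assoc, H.root.mul_sE_sE, ← RS.wd_append, ← ih]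
        have e2 := h5 _ _ rfl (fun i hi => (List.mem_append.1 hi).elim (hl' i) (hl i)) e1
        refine ⟨_, mul_mem (inv_mem e2) (h4 _ hl' _ (inv_mem ht)), l.reverse, hl', ?_⟩
        rw [nd_append]
        group }
  have k1 : K ≤ L.NJ J := by
    rintro _ ⟨t, ht, l, hl, rfl⟩
    exact ⟨_, RS.wd_mem hl, (H.rep_nd l).Z0_mul (h0 ht)⟩
  rintro g ⟨a, b⟩
  obtain ⟨u, c, n, ⟨t, ht, l, hl, rfl⟩, u', d, e⟩ := H.bruhat_gen (K := K)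
    (fun j hj u a b v c v' d e => ⟨_, h2 j hj u a b v c v' d e, [j], by simpa using hj, by
      rw [nd_single, inv_mul_cancel_right]⟩) k1 (Subgroup.mem_sup_right a)
  have r := (H.rep_nd l).Z0_mul (h0 ht)
  rw [H.cell_eq' r (rep_one.2 b) (RS.wd_mem_W l) (one_mem _) c.1 d.1 e]
  exact mul_mem ht (h5 _ l rfl hl
    (H.cell_eq r (rep_one.2 b) (RS.wd_mem_W l) (one_mem _) (Up_le_B c.1) (Up_le_B d.1) e))

theorem conj_GJ (a : z ∈ L.Z0) (b : g ∈ L.GJ J) : z * g * z⁻¹ ∈ L.GJ J :=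
  (GJ_le (K := (L.GJ J).comap (MulAut.conj z).toMonoidHom)
    (fun _ e _ c => X_le_GJ' e (Z0_conj_UD a c)) (fun _ e _ c => X_le_GJ'' e (Z0_conj_UD a c)) b :)

theorem conj_GJ' (a : g' ∈ L.LJ J) (b : g ∈ L.GJ J) : g' * g * g'⁻¹ ∈ L.GJ J := by
  have : L.Z0 ⊔ L.GJ J ≤ Subgroup.normalizer (L.GJ J : Set G) :=
    sup_le (fun z c x => ⟨H.conj_GJ c, fun d => by
      simpa [mul_assoc] using H.conj_GJ (inv_mem c) d⟩) Subgroup.le_normalizer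
  exact (this (H.LJ_eq J ▸ a) g).1 b

theorem normal_Gp : L.Gp.Normal :=
  ⟨fun g a x => H.GJ_univ ▸ H.conj_GJ' (LJ_univ (L := L) ▸ Subgroup.mem_top x) (H.GJ_univ ▸ a)⟩

theorem exists_LJ (a : g ∈ L.LJ J) : ∃ x ∈ L.GJ J, ∃ z ∈ L.Z0, g = x * z := by
  obtain ⟨u, hu, n, ⟨w, b, c⟩, u', hu', rfl⟩ := H.LJ_bruhat a
  obtain ⟨n', d, e⟩ := H.exists_rep b
  have f := (e.div c).2
  exact ⟨_, mul_mem (mul_mem (H.UJ_le_GJ J hu) d) (H.UJ_le_GJ J (Z0_conj_UJ f hu')), _, f,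
    by group⟩

theorem exists_Gp (g : G) : ∃ x ∈ L.Gp, ∃ z ∈ L.Z0, g = x * z :=
  H.GJ_univ ▸ H.exists_LJ (LJ_univ (L := L) ▸ Subgroup.mem_top g)

end Ok

end LD

end Vale.Agent.P092GP
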