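import Vale.Agent.P092GP.Cell
import Vale.Agent.P092GP.DefsT

/-!
P092, group package: topology of a linear package over a local field.
-/

set_option autoImplicit false
set_option linter.all false

namespace Vale.Agent.P092GP

open Matrix Vale.Agent.P183CH Filter Topology Pointwise

theorem exists_unif (k : Type) [NontriviallyNormedField k] : ∃ t : kˣ, ‖(t : k)‖ < 1 :=
  let ⟨t, a, c⟩ := NormedField.exists_norm_lt_one k
  ⟨Units.mk0 t (norm_pos_iff.1 a), c⟩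

theorem cpt_ann {k : Type} [NontriviallyNormedField k] [ProperSpace k] {a : ℝ} (ha : 0 < a) (c : ℝ) :
    IsCompact {t : kˣ | a ≤ ‖(t : k)‖ ∧ ‖(t : k)‖ ≤ c} := by
  have := Units.isEmbedding_val₀.isInducing.isCompact_preimage'
    (((isCompact_closedBall (0 : k) c).inter_left (isClosed_le continuous_const continuous_norm :
      IsClosed {t : k | a ≤ ‖t‖}))) fun t e => ⟨Units.mk0 t (norm_pos_iff.1 (ha.trans_le e.1)), rfl⟩
  simpa [Set.preimage] using this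

namespace LD

variable {k G : Type} [NontriviallyNormedField k] [Group G] [TopologicalSpace G] {L : LD k G}
  {g u v z b : G} {h : Fin L.R.r → ℝ} {i j : Fin L.R.r} {A A' : Set G}

variable (L) in
/-- Bounded sets. -/
def Bd (A : Set G) : Prop := ∃ K, IsCompact K ∧ ∀ g ∈ A, L.ρ g ∈ K

theorem Bd.mono (a : L.Bd A) (c : A' ⊆ A) : L.Bd A' := let ⟨K, d, e⟩ := a; ⟨K, d, fun g f => e g (c f)⟩

theorem Bd.mul (a : L.Bd A) (c : L.Bd A') : L.Bd (A * A') := by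
  obtain ⟨K, d, e⟩ := a
  obtain ⟨K', d', e'⟩ := c
  refine ⟨K * K', d.mul d', ?_⟩
  rintro _ ⟨x, hx, y, hy, rfl⟩
  exact map_mul L.ρ x y ▸ Set.mul_mem_mul (e x hx) (e' y hy)

theorem Bd.norm (a : L.Bd A) : ∃ R : ℝ, 1 ≤ R ∧ ∀ g ∈ A, ∀ x y, ‖L.ρ g x y‖ ≤ R := by
  obtain ⟨K, d, e⟩ := a
  obtain ⟨R, hR⟩ := d.bddAbove_image (f := fun M : Matrix _ _ k => ‖fun q : _ × _ => M q.1 q.2‖)
    (by fun_prop)
  exact ⟨max 1 R, le_max_left _ _, fun g f x y =>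
    ((norm_le_pi_norm (fun q : _ × _ => L.ρ g q.1 q.2) (x, y)).trans (hR ⟨_, e g f, rfl⟩)).trans
      (le_max_right _ _)⟩

namespace LP

variable (H : L.LP)
include H

theorem cont : Continuous L.ρ := H.emb.continuous

theorem cont_ent (x y : Fin L.n) : Continuous fun g => L.ρ g x y := H.cont.matrix_elem x y

theorem rho_inv (g : G) : L.ρ g⁻¹ = (L.ρ g).adjugate := by
  rw [← one_mul (adjugate _), ← rho_inv_mul (ρ := L.ρ) g, mul_assoc, mul_adjugate, H.ok.det,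
    one_smul, mul_one]

theorem top : IsTopologicalGroup G where
  continuous_mul := H.emb.continuous_iff.2 (by
    simpa only [Function.comp_def, map_mul] using
      (H.cont.comp continuous_fst).matrix_mul (H.cont.comp continuous_snd))
  continuous_inv := H.emb.continuous_iff.2 (by
    simpa only [Function.comp_def, H.rho_inv] using H.cont.matrix_adjugate)

theorem t2 : T2Space G := H.emb.t2Space

theorem sc : SecondCountableTopology G :=
  have := H.prop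
  have : SecondCountableTopology (Matrix (Fin L.n) (Fin L.n) k) :=
    inferInstanceAs (SecondCountableTopology (Fin L.n → Fin L.n → k))
  H.emb.secondCountableTopology

theorem tendsto_iff {ι : Type} {l : Filter ι} {f : ι → G} : Tendsto f l (𝓝 g) ↔
    ∀ x y, Tendsto (fun q => L.ρ (f q) x y) l (𝓝 (L.ρ g x y)) :=
  H.emb.tendsto_nhds_iff.trans (tendsto_pi_nhds.trans (forall_congr' fun _ => tendsto_pi_nhds))

theorem closed_PD (E : AddSubmonoid L.R.Q) : IsClosed (PD L.wt L.ρ E : Set G) := by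
  show IsClosed {g | ∀ x y, _ → _}
  simp only [Set.setOf_forall]
  exact isClosed_iInter fun x => isClosed_iInter fun y => isClosed_iInter fun _ =>
    isClosed_eq (H.cont_ent x y) continuous_const

theorem closed_UD (F : AddSubsemigroup L.R.Q) : IsClosed (UD L.wt L.ρ F : Set G) := by
  show IsClosed {g | ∀ x y, _ → _}
  simp only [Set.setOf_forall]
  exact isClosed_iInter fun x => isClosed_iInter fun y => isClosed_iInter fun _ =>
    isClosed_eq ((H.cont_ent x y).sub continuous_const) continuous_const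

theorem cont_x : Continuous L.x := H.emb.continuous_iff.2 (continuous_matrix fun a c => by
  simpa only [Function.comp_def, H.ok.x_apply] using MvPolynomial.continuous_eval (L.e a c))

theorem cont_co (j : Fin L.m) : Continuous (L.co j) := by
  unfold co
  fun_prop

theorem cont_cf : Continuous L.cf := continuous_pi fun j => (H.cont_co j).comp H.cont

theorem cont_σ : Continuous L.σ := H.emb.continuous_iff.2 (by
  simp only [Function.comp_def, H.ok.rho_σ]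
  exact (continuous_pi fun a => Units.continuous_val.comp (by fun_prop)).matrix_diagonal)

theorem cont_τ (y : L.R.Q) : Continuous (L.τ y) := by
  simp only [funext (H.ok.τ_eq_σ y)]
  exact H.cont_σ.comp (by fun_prop)

theorem isOpen_Ω : IsOpen L.Ω := by
  rw [show L.Ω = {g | P092AL.ff L.yy (L.ρ g) ≠ 0} from Set.ext fun _ => H.ok.mem_Ω_ff]
  exact isOpen_ne_fun (P092AL.cont_ff.comp H.cont) continuous_const

theorem cont_lo : ContinuousOn L.lo L.Ω := H.emb.continuousOn_iff.2 (ContinuousOn.congr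
  (fun g a => ((P092AL.contAt_lo (H.ok.mem_Ω_ff.1 a)).comp H.cont.continuousAt).continuousWithinAt)
  fun g a => H.ok.rho_lo a)

theorem cont_up : ContinuousOn L.up L.Ω := H.emb.continuousOn_iff.2 (ContinuousOn.congr
  (fun g a => ((P092AL.contAt_up (H.ok.mem_Ω_ff.1 a)).comp H.cont.continuousAt).continuousWithinAt)
  fun g a => H.ok.rho_up a)

/-- **Contraction.** -/
theorem contr {y : L.R.Q} {t : kˣ} (ht : ‖(t : k)‖ < 1) (a : u ∈ L.U fun j => (y j : ℝ)) :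
    Tendsto (fun m : ℕ => L.τ y t ^ m * u * (L.τ y t ^ m)⁻¹) atTop (𝓝 1) :=
  H.tendsto_iff.2 fun x z => by
    simp only [← H.ok.τ_pow, H.ok.τ_conj, map_one]
    by_cases c : 0 < (L.wt x - L.wt z) ⬝ᵥ y
    · obtain ⟨q, hq⟩ := Int.eq_ofNat_of_zero_le c.le
      have e : x ≠ z := by
        rintro rfl
        simp at c
      simp only [hq, zpow_natCast, Units.val_pow_eq_pow_val, one_apply_ne e]
      simpa only [zero_mul, pow_right_comm _ q] using (tendsto_pow_atTop_nhds_zero_of_norm_lt_one (x := (t : k) ^ q) (by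
        rw [norm_pow]
        exact pow_lt_one₀ (norm_nonneg _) ht (by omega))).mul_const (L.ρ u x z)
    · rw [mem_U.1 a x z (by rw [← sub_nonpos, ← pr_sub, pr_cast]; exact_mod_cast not_lt.1 c)]
      by_cases e : x = z
      · simp [e]
      · simp [one_apply_ne e]

theorem contr_X {t : kˣ} (ht : ‖(t : k)‖ < 1) (a : u ∈ L.X (L.R.α i)) : Tendsto
    (fun m : ℕ => L.τ (L.R.α i) t ^ m * u * (L.τ (L.R.α i) t ^ m)⁻¹) atTop (𝓝 1) :=
  H.contr ht (X_le_U (γ := L.R.α i) (by simp [pr_α, RS.α_self]) a)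

theorem contr_P {y : L.R.Q} {t : kˣ} (ht : ‖(t : k)‖ < 1) (a : g ∈ L.P fun j => (y j : ℝ)) :
    ∃ z ∈ L.Z fun j => (y j : ℝ),
      Tendsto (fun m : ℕ => L.τ y t ^ m * g * (L.τ y t ^ m)⁻¹) atTop (𝓝 z) := by
  have := H.top
  obtain ⟨u, c, z, d, rfl⟩ := H.ok.P_decomp a
  refine ⟨z, d, ?_⟩
  simpa only [one_mul, ← H.ok.τ_pow, ← H.ok.τ_inv, mul_assoc, H.ok.τ_comm _ d] using
    (H.contr ht c).mul_const z

theorem bd_cpt (a : IsCompact A) : L.Bd A := ⟨_, a.image H.cont, fun g c => ⟨g, c, rfl⟩⟩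

theorem bd_inv (a : L.Bd A) : L.Bd A⁻¹ :=
  let ⟨K, d, e⟩ := a
  ⟨_, d.image continuous_id.matrix_adjugate, fun g c => ⟨_, e _ c, (H.rho_inv _).symm.trans (by rw [inv_inv])⟩⟩

theorem bd_norm (R : ℝ) : L.Bd {g | ∀ x y, ‖L.ρ g x y‖ ≤ R} :=
  have := H.prop
  ⟨(Set.univ.pi fun _ => Set.univ.pi fun _ => Metric.closedBall 0 R :
    Set (Fin L.n → Fin L.n → k)), isCompact_univ_pi fun _ => isCompact_univ_pi fun _ =>
      isCompact_closedBall _ _, fun g a x _ y _ => mem_closedBall_zero_iff.2 (a x y)⟩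

theorem cpt_Up (a : L.Bd A) (c : A ⊆ L.Up) : ∃ C, IsCompact C ∧ C ⊆ L.Up ∧ A ⊆ C :=
  let ⟨K, d, e⟩ := a
  ⟨_, (d.image (continuous_pi H.cont_co)).image H.cont_x, by
    rintro _ ⟨s, -, rfl⟩
    exact H.ok.x_mem s, fun u f => ⟨_, ⟨_, e u f, rfl⟩, H.ok.x_cf (c f)⟩⟩

theorem cpt_Um (a : L.Bd A) (c : A ⊆ L.Um) : ∃ C, IsCompact C ∧ C ⊆ L.Um ∧ A ⊆ C := by
  have := H.top
  obtain ⟨w, d, n, -, e⟩ := H.ok.exists_n0
  obtain ⟨C, h1, h2, h3⟩ := H.cpt_Up (((H.bd_cpt (isCompact_singleton (x := n))).mul a).mul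
    (H.bd_cpt (isCompact_singleton (x := n⁻¹)))) (by
      rintro _ ⟨_, ⟨_, rfl, v, f, rfl⟩, _, rfl, rfl⟩
      exact H.ok.lg_Um e d (c f))
  refine ⟨_, h1.image (f := fun x => n⁻¹ * x * n⁻¹⁻¹) (by fun_prop), ?_, fun v f =>
    ⟨_, h3 ⟨_, ⟨n, rfl, v, f, rfl⟩, _, rfl, rfl⟩, by group⟩⟩
  rintro _ ⟨x, f, rfl⟩
  exact H.ok.lg_Up (H.ok.lg_inv e d) d (h2 f)

theorem cpt_S (a : L.Bd A) (c : A ⊆ L.S) : ∃ C, IsCompact C ∧ C ⊆ L.S ∧ A ⊆ C := by
  have := H.prop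
  obtain ⟨R, h1, h2⟩ := a.norm
  obtain ⟨R', h1', h2'⟩ := (H.bd_inv a).norm
  have h3 : ∀ t, L.σ t ∈ A ∨ L.σ t ∈ A⁻¹ → ∀ j, ‖(t j : k)‖ ≤ R * R' := by
    intro t ht j
    obtain ⟨x, y, e⟩ := H.ok.exists_wt_α j
    have e1 : L.ρ (L.σ t) x x * L.ρ (L.σ t)⁻¹ y y = (t j : k) ^ L.N := by
      rw [← H.ok.σ_inv, H.ok.rho_σ, H.ok.rho_σ, diagonal_apply_eq, diagonal_apply_eq,
        ← Units.val_mul, ← Finset.prod_mul_distrib, ← Units.val_pow_eq_pow_val,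
        Finset.prod_eq_single j]
      · rw [Pi.inv_apply, _root_.inv_zpow', ← _root_.zpow_add, ← sub_eq_add_neg, ← Pi.sub_apply, e]
        simp [RS.α_self]
      · intro i _ f
        rw [Pi.inv_apply, _root_.inv_zpow', ← _root_.zpow_add, ← sub_eq_add_neg, ← Pi.sub_apply, e]
        simp [RS.α_ne f]
      · simp
    have e2 : ‖(t j : k)‖ ^ L.N ≤ R * R' := by
      rw [← norm_pow, ← e1, norm_mul]
      rcases ht with f | f
      · exact mul_le_mul (h2 _ f x x) (h2' _ (Set.inv_mem_inv.2 f) y y) (norm_nonneg _) (by linarith)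
      · rw [mul_comm R]
        exact mul_le_mul (h2' _ f x x) (h2 _ f y y) (norm_nonneg _) (by linarith)
    rcases le_total ‖(t j : k)‖ 1 with f | f
    · exact f.trans (one_le_mul_of_one_le_of_one_le h1 h1')
    · exact (le_self_pow₀ f H.ok.npos.ne').trans e2
  have h4 : 0 < R * R' := by positivity
  refine ⟨_, (isCompact_univ_pi fun _ => cpt_ann (inv_pos.2 h4) (R * R')).image H.cont_σ, ?_,
    fun s f => ?_⟩
  · rintro _ ⟨t, -, rfl⟩
    exact H.ok.mem_S.2 ⟨t, rfl⟩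
  obtain ⟨t, rfl⟩ := H.ok.mem_S.1 (c f)
  refine ⟨t, fun j _ => ⟨?_, h3 t (Or.inl f) j⟩, rfl⟩
  have := h3 t⁻¹ (Or.inr (by rwa [H.ok.σ_inv, Set.inv_mem_inv])) j
  rw [Pi.inv_apply, Units.val_inv_eq_inv_val, norm_inv] at this
  exact inv_le_of_inv_le₀ (norm_pos_iff.2 (t j).ne_zero) this

theorem cpt_Z0 (a : L.Bd A) (c : A ⊆ L.Z0) : ∃ C, IsCompact C ∧ C ⊆ L.Z0 ∧ A ⊆ C := by
  have := H.top
  obtain ⟨C, h1, h2, h3⟩ := H.cpt
  obtain ⟨D, d1, d2, d3⟩ := H.cpt_S (A := (A * C⁻¹) ∩ L.S)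
    ((a.mul (H.bd_cpt h1.inv)).mono Set.inter_subset_left) Set.inter_subset_right
  refine ⟨D * C, d1.mul h1, ?_, fun z f => ?_⟩
  · rintro _ ⟨x, e, y, f, rfl⟩
    exact mul_mem (H.ok.S_le_Z0 (d2 e)) (h2 f)
  obtain ⟨s, e, x, e', rfl⟩ := h3 z (c f)
  exact ⟨s, d3 ⟨⟨_, f, _, Set.inv_mem_inv.2 e', by simp⟩, e⟩, x, e', rfl⟩

theorem cpt_B (a : L.Bd A) (c : A ⊆ L.B) : ∃ C, IsCompact C ∧ C ⊆ L.B ∧ A ⊆ C := by
  classical
  have := H.top
  have h1 : L.Bd {z | z ∈ L.Z0 ∧ ∃ u ∈ L.Up, z * u ∈ A} := by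
    obtain ⟨K, d, e⟩ := a
    refine ⟨_, d.image (f := fun M => of fun x y => if L.wt x = L.wt y then M x y else 0)
      (continuous_matrix fun x y => ?_), fun z ⟨f, u, f', f''⟩ => ⟨_, e _ f'', (blk_B f f').symm⟩⟩
    simp only [of_apply]
    split_ifs <;> fun_prop
  obtain ⟨C, c1, c2, c3⟩ := H.cpt_Z0 h1 fun _ e => e.1
  obtain ⟨D, d1, d2, d3⟩ := H.cpt_Up (A := (C⁻¹ * A) ∩ L.Up)
    (((H.bd_cpt c1.inv).mul a).mono Set.inter_subset_left) Set.inter_subset_right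
  refine ⟨C * D, c1.mul d1, ?_, fun b f => ?_⟩
  · rintro _ ⟨x, e, y, f, rfl⟩
    exact mul_mem (Z0_le_B (c2 e)) (Up_le_B (d2 f))
  obtain ⟨z, e, u, e', rfl⟩ := H.ok.mem_B.1 (c f)
  have := c3 ⟨e, u, e', f⟩
  exact ⟨z, this, u, d3 ⟨⟨_, Set.inv_mem_inv.2 this, _, f, by simp⟩, e'⟩, rfl⟩

/-- Scaling into a compact annulus. -/
theorem scale (i : Fin L.R.r) {t : kˣ} (ht : ‖(t : k)‖ < 1) : ∃ C, IsCompact C ∧
    C ⊆ L.X (L.R.α i) ∧ 1 ∉ C ∧ ∀ u ∈ L.X (L.R.α i), ‖L.cf u‖ ≤ 1 ∨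
      ∃ m : ℕ, L.τ (L.R.α i) t ^ m * u * (L.τ (L.R.α i) t ^ m)⁻¹ ∈ C := by
  classical
  have := H.prop
  have := H.top
  have h1 : IsCompact (L.x '' Metric.closedBall 0 1) := (isCompact_closedBall _ _).image H.cont_x
  refine ⟨_, (h1.inter_right (H.closed_UD (dRay (L.R.α i)))).inter_right (isClosed_le
    continuous_const (H.cont_cf.comp (by fun_prop : Continuous fun u =>
      (L.τ (L.R.α i) t)⁻¹ * u * L.τ (L.R.α i) t)).norm : IsClosed {u | (1 : ℝ) ≤ _}),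
    fun _ e => e.1.2, fun e => ?_, fun u a => ?_⟩
  · have := e.2
    simp [H.ok.cf_one] at this
    linarith
  have h2 : ∃ m : ℕ, ‖L.cf (L.τ (L.R.α i) t ^ m * u * (L.τ (L.R.α i) t ^ m)⁻¹)‖ ≤ 1 := by
    have := (H.cont_cf.norm.tendsto 1).comp (H.contr_X ht a)
    rw [H.ok.cf_one, norm_zero] at this
    exact (this.eventually (ge_mem_nhds one_pos)).exists
  rcases Nat.eq_zero_or_eq_succ_pred (Nat.find h2) with e | e
  · exact Or.inl (by simpa [e] using Nat.find_spec h2)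
  have h3 := Z0_conj_UD (pow_mem (H.ok.τ_mem_Z0 (L.R.α i) t) (Nat.find h2)) a
  refine Or.inr ⟨Nat.find h2, ⟨⟨_, mem_closedBall_zero_iff.2 (Nat.find_spec h2),
    H.ok.x_cf (H.ok.Xα_le_Up i h3)⟩, h3⟩, ?_⟩
  have h4 := (not_le.1 (Nat.find_min h2 (m := (Nat.find h2).pred) (by omega))).le
  rw [Set.mem_setOf_eq, Function.comp_apply, e, pow_succ']
  simpa only [Nat.succ_eq_add_one, mul_assoc, inv_mul_cancel_left, _root_.mul_inv_rev,
    inv_mul_cancel, mul_one] using h4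

theorem iwa_one (i : Fin L.R.r) :
    ∃ C, IsCompact C ∧ ∀ g ∈ L.P (L.hh i), ∃ x ∈ C, ∃ b ∈ L.B, g = x * b := by
  have := H.prop
  have := H.top
  obtain ⟨t, ht⟩ := exists_unif k
  obtain ⟨C, c1, c2, c3, c4⟩ := H.scale i ht
  have h1 : ∀ u ∈ C, L.lo (u * L.nn i) ∈ L.X (-L.R.α i) ∧ u * L.nn i ∈ L.Ω := fun u a => by
    obtain ⟨v, d, b, e, f⟩ := H.ok.X_nn (c2 a) fun e => c3 (e ▸ a)
    rw [f, H.ok.lo_eq (H.ok.Xα_le_Um i d) e]
    exact ⟨d, H.ok.mem_Ω.2 ⟨v, H.ok.Xα_le_Um i d, b, e, rfl⟩⟩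
  obtain ⟨R, -, hR⟩ := (H.bd_cpt (c1.image_of_continuousOn (f := fun u => L.lo (u * L.nn i))
    (H.cont_lo.comp (by fun_prop) fun u a => (h1 u a).2))).norm
  obtain ⟨D, d1, -, d3⟩ := H.cpt_Um (A := {g | ∀ x y, ‖L.ρ g x y‖ ≤ R} ∩ L.Um)
    ((H.bd_norm R).mono Set.inter_subset_left) Set.inter_subset_right
  refine ⟨_, (isCompact_singleton (x := (1 : G))).union (d1.union (((isCompact_closedBall 0 1).image
    H.cont_x).image (continuous_mul_right (L.nn i)))), fun g a => ?_⟩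
  rcases H.ok.P_hh a with e | ⟨u, e, b, f, rfl⟩
  · exact ⟨1, Or.inl rfl, g, e, (one_mul g).symm⟩
  rcases c4 u e with c | ⟨m, c⟩
  · exact ⟨_, Or.inr (Or.inr ⟨u, ⟨_, mem_closedBall_zero_iff.2 c,
      H.ok.x_cf (H.ok.Xα_le_Up i e)⟩, rfl⟩), b, f, rfl⟩
  rw [← H.ok.τ_pow] at c
  obtain ⟨h2, h3⟩ := h1 _ c
  have h4 := H.ok.τ_mem_Z0 (L.R.α i) (t ^ m)
  have h5 := H.ok.cell_spec h3
  have h6 := hR _ ⟨_, c, rfl⟩
  dsimp only at h6
  generalize L.lo (L.τ (L.R.α i) (t ^ m) * u * (L.τ (L.R.α i) (t ^ m))⁻¹ * L.nn i) = v at *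
  refine ⟨_, Or.inr (Or.inl (d3 ⟨fun x y => ?_, Z0_conj_UD (inv_mem h4) h5.1⟩)), _,
    mul_mem (mul_mem (mul_mem (mul_mem (Z0_le_B (inv_mem h4)) (Z0_le_B h5.2.1)) (Up_le_B h5.2.2))
      (Z0_le_B ((H.ok.rep_nn i).inv.conj_Z0 h4))) f, by group⟩
  rw [← H.ok.τ_neg, H.ok.τ_conj, norm_mul]
  by_cases e : L.ρ v x y = 0
  · simpa [e] using h6 x y
  refine (mul_le_of_le_one_left (norm_nonneg _) ?_).trans (h6 x y)
  have h7 := sup_iff.1 (Um_le_Bm h5.1) x y e i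
  rw [Units.val_zpow_eq_zpow_val, norm_zpow]
  refine zpow_le_one₀ (norm_pos_iff.2 (Units.ne_zero _)) ?_ (by simpa [RS.α] using h7)
  rw [Units.val_pow_eq_pow_val, norm_pow]
  exact pow_le_one₀ (norm_nonneg _) ht.le

/-- **Iwasawa decomposition.** -/
theorem iwa : ∃ C, IsCompact C ∧ ∀ g, ∃ x ∈ C, ∃ b ∈ L.B, g = x * b := by
  have := H.top
  have h1 : ∀ l : List (Fin L.R.r), ∃ C, IsCompact C ∧
      ∀ b ∈ L.B, ∃ x ∈ C, ∃ b' ∈ L.B, b * L.nd l = x * b' := by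
    intro l
    induction l with
    | nil => exact ⟨{1}, isCompact_singleton, fun b a => ⟨1, rfl, b, a, by simp [nd_nil]⟩⟩
    | cons i l ih =>
      obtain ⟨C, c1, c2⟩ := H.iwa_one i
      obtain ⟨D, d1, d2⟩ := ih
      refine ⟨C * D, c1.mul d1, fun b a => ?_⟩
      obtain ⟨x, e, b', f, e1⟩ := c2 _ (mul_mem (B_le_P (hh_nonneg i) a) (Z_le_P _ (H.ok.nn_mem_Z i)))
      obtain ⟨y, e', b'', f', e2⟩ := d2 b' f
      exact ⟨_, ⟨x, e, y, e', rfl⟩, b'', f', by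
        rw [nd_cons, ← mul_assoc, e1, mul_assoc, e2, mul_assoc]⟩
  choose C c1 c2 using h1
  have := H.ok.root.finite_W
  choose l _ hl using fun w : L.R.W => H.ok.root.exists_wd w.2
  refine ⟨⋃ w, C (l w), isCompact_iUnion fun w => c1 _, fun g => ?_⟩
  obtain ⟨u, a, n, w, c, d, u', e, rfl⟩ := H.ok.bruhat0 g
  obtain ⟨x, f, b, f', e1⟩ := c2 (l ⟨w, c⟩) u (Up_le_B a)
  have := ((H.ok.rep_nd (l ⟨w, c⟩)).div (by rw [← hl]; exact d)).2
  exact ⟨x, Set.mem_iUnion.2 ⟨_, f⟩, _, mul_mem (mul_mem f' (Z0_le_B this)) (Up_le_B e), by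
    rw [← mul_assoc, ← mul_assoc, ← e1]; group⟩

/-- Bounded sets are relatively compact. -/
theorem cpt_bd (a : L.Bd A) : ∃ C, IsCompact C ∧ A ⊆ C := by
  have := H.top
  obtain ⟨C, c1, c2⟩ := H.iwa
  obtain ⟨D, d1, -, d3⟩ := H.cpt_B (A := (C⁻¹ * A) ∩ L.B)
    (((H.bd_cpt c1.inv).mul a).mono Set.inter_subset_left) Set.inter_subset_right
  refine ⟨C * D, c1.mul d1, fun g f => ?_⟩
  obtain ⟨x, e, b, e', rfl⟩ := c2 g
  exact ⟨x, e, b, d3 ⟨⟨_, Set.inv_mem_inv.2 e, _, f, by simp⟩, e'⟩, rfl⟩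

theorem cpt_pre {K : Set (Matrix (Fin L.n) (Fin L.n) k)} (a : IsCompact K) :
    IsCompact (L.ρ ⁻¹' K) :=
  let ⟨_, c, d⟩ := H.cpt_bd (A := L.ρ ⁻¹' K) ⟨K, a, fun _ e => e⟩
  c.of_isClosed_subset (a.isClosed.preimage H.cont) d

/-- The representation is a closed embedding. -/
theorem cemb : IsClosedEmbedding L.ρ :=
  have : FirstCountableTopology (Matrix (Fin L.n) (Fin L.n) k) :=
    inferInstanceAs (FirstCountableTopology (Fin L.n → Fin L.n → k))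
  ⟨H.emb, (isProperMap_iff_isCompact_preimage.2 ⟨H.cont, fun _ => H.cpt_pre⟩).isClosedMap.isClosed_range⟩

theorem lc : LocallyCompactSpace G :=
  have := H.prop
  have : LocallyCompactSpace (Matrix (Fin L.n) (Fin L.n) k) :=
    inferInstanceAs (LocallyCompactSpace (Fin L.n → Fin L.n → k))
  H.cemb.locallyCompactSpace

theorem cpt_norm (R : ℝ) : IsCompact {g | ∀ x y, ‖L.ρ g x y‖ ≤ R} :=
  let ⟨_, c, d⟩ := H.cpt_bd (H.bd_norm R)
  c.of_isClosed_subset (by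
    simp only [Set.setOf_forall]
    exact isClosed_iInter fun x => isClosed_iInter fun y =>
      isClosed_le (H.cont_ent x y).norm continuous_const) d

theorem P_hh_sub (a : g ∈ L.P (L.hh i)) : g ∈ closure L.Ω := by
  have := H.top
  have h1 : ∀ u ∈ L.X (L.R.α i), u ≠ 1 → ∀ b ∈ L.B, u * L.nn i * b ∈ L.Ω := fun u a c b d =>
    let ⟨v, e, b', f, e'⟩ := H.ok.X_nn a c
    H.ok.Ω_mul_B (H.ok.mem_Ω.2 ⟨v, H.ok.Xα_le_Um i e, b', f, e'⟩) d
  rcases H.ok.P_hh a with e | ⟨u, e, b, f, rfl⟩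
  · exact subset_closure (H.ok.B_sub_Ω e)
  by_cases c : u = 1
  swap
  · exact subset_closure (h1 u e c b f)
  obtain ⟨t, ht⟩ := exists_unif k
  obtain ⟨x, d, d'⟩ := H.ok.exists_X i
  rw [c]
  exact mem_closure_of_tendsto (((H.contr_X ht d).mul_const _).mul_const b)
    (Eventually.of_forall fun m =>
      h1 _ (Z0_conj_UD (pow_mem (H.ok.τ_mem_Z0 _ t) m) d) (fun e => d' (conj_eq_one_iff.1 e)) b f)

/-- The big cell is dense. -/
theorem dense_Ω : Dense L.Ω := by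
  have := H.top
  have h1 : ∀ x : G, (∀ g ∈ L.Ω, x * g ∈ closure L.Ω) → ∀ g ∈ closure L.Ω, x * g ∈ closure L.Ω :=
    fun x a g c => closure_closure (s := L.Ω) ▸ map_mem_closure (continuous_mul_left x) c a
  have h2 : ∀ x ∈ L.Bm, ∀ g ∈ closure L.Ω, x * g ∈ closure L.Ω := fun x a =>
    h1 x fun g c => subset_closure (H.ok.Bm_mul_Ω a c)
  have h3 : ∀ l, ∀ b ∈ L.B, L.nd l * b ∈ closure L.Ω := by
    intro l b a
    induction l with
    | nil => exact subset_closure (H.ok.B_sub_Ω (by simpa [nd_nil] using a))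
    | cons i l ih =>
      rw [nd_cons, mul_assoc]
      refine h1 _ (fun g c => ?_) _ ih
      obtain ⟨v, d, b', e, rfl⟩ := H.ok.mem_Ω.1 c
      obtain ⟨u, f, z, f', rfl⟩ := H.ok.P_decomp (Bm_le_P (hh_nonneg i) (Um_le_Bm d))
      have h4 := H.ok.nn_mem_Z i
      have := h2 _ (Um_le_Bm (H.ok.U_le_Um (hh_nonneg i) (conj_U (Z_le_P _ ((Z_neg (L := L) _).ge h4)) f))) _
        (H.P_hh_sub (mul_mem (Z_le_P _ (mul_mem h4 ((Z_neg _).le f'))) (B_le_P (hh_nonneg i) e)))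
      simpa only [mul_assoc, inv_mul_cancel_left] using this
  intro g
  obtain ⟨v, a, n, w, c, d, u, e, rfl⟩ := H.ok.birkhoff g
  obtain ⟨l, -, rfl⟩ := H.ok.root.exists_wd c
  simpa only [mul_assoc, mul_inv_cancel_left] using h2 v (Um_le_Bm a) _
    (h3 l _ (mul_mem (Z0_le_B ((H.ok.rep_nd l).div d).2) (Up_le_B e)))

end LP

end LD

end Vale.Agent.P092GP
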