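import Vale.Agent.P092GP.Hw
import Vale.Agent.P092GP.Top
import Vale.Agent.P092GK.PanD

/-!
P092, group package: a linear package over a local field gives a flag package and a panel package.
-/

set_option autoImplicit false
set_option linter.all false

namespace Vale.Agent.P092GP

open Matrix Vale.Agent.P183CH Filter Topology Vale.Agent.P092GK
open Vale.Agent.P092.H710.Rp (T T_apply T_mul)

namespace LD

variable {k G : Type} [NontriviallyNormedField k] [Group G] {L : LD k G}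
  {g n u v z z' b : G} {h : Fin L.R.r → ℝ} {i j : Fin L.R.r} {w : L.R.Aut}

variable (L) in
/-- The space of the proximal representation `j`. -/
abbrev EE (j : Fin L.R.r) : Submodule k ((L.IJ j → Fin L.n) → k) :=
  Submodule.span k (Set.range (L.mv j))

variable (L) in
/-- The Kronecker power as a continuous map. -/
def TL (j : Fin L.R.r) (g : G) : ((L.IJ j → Fin L.n) → k) →L[k] (L.IJ j → Fin L.n) → k where
  toLinearMap := T (L.ρ g)
  cont := continuous_pi fun a => by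
    show Continuous fun f : (L.IJ j → Fin L.n) → k => ∑ b, (∏ i, L.ρ g (a i) (b i)) * f b
    fun_prop

theorem TL_mem (j : Fin L.R.r) (g : G) : ∀ x ∈ L.EE j, L.TL j g x ∈ L.EE j := fun x a =>
  (Submodule.span_le (p := (L.EE j).comap (T (L.ρ g)))).2 (by
    rintro _ ⟨y, rfl⟩
    exact Submodule.subset_span ⟨_, (T_mv j g y).symm⟩) a

variable (L) in
/-- The orbit of the highest weight vector. -/
def ov (j : Fin L.R.r) (g : G) : L.EE j := ⟨L.mv j g, Submodule.subset_span ⟨g, rfl⟩⟩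

theorem span_ov (j : Fin L.R.r) : Submodule.span k (Set.range (L.ov j)) = ⊤ :=
  (Submodule.span_range_subtype_eq_top_iff _ _).2 rfl

theorem ov_ext {X : Type} [AddCommGroup X] [Module k X] {f f' : L.EE j →ₗ[k] X}
    (e : ∀ g, f (L.ov j g) = f' (L.ov j g)) (x : L.EE j) : f x = f' x :=
  LinearMap.congr_fun (LinearMap.ext_on_range (span_ov j) e) x

variable (L) in
/-- The proximal representations. -/
def VV (j : Fin L.R.r) : G →* (L.EE j →L[k] L.EE j) where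
  toFun g := (L.TL j g).restrict (TL_mem j g)
  map_one' := ContinuousLinearMap.ext (ov_ext fun g => Subtype.ext ((T_mv j 1 g).trans (by
    rw [one_mul]; rfl)))
  map_mul' g g' := ContinuousLinearMap.ext fun x => Subtype.ext (by
    show T (L.ρ (g * g')) _ = T (L.ρ g) (T (L.ρ g') _)
    rw [map_mul, T_mul])

theorem VV_ov (j : Fin L.R.r) (g g' : G) : L.VV j g (L.ov j g') = L.ov j (g * g') :=
  Subtype.ext (T_mv j g g')

theorem ov_P (a : b ∈ L.P (Pi.single j 1)) (g : G) : L.ov j (g * b) = L.Δ j b • L.ov j g :=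
  Subtype.ext (mv_P a g)

/-- The uniformiser. -/
noncomputable def unif (k : Type) [NontriviallyNormedField k] : kˣ := (exists_unif k).choose

theorem unif_lt : ‖(unif k : k)‖ < 1 := (exists_unif k).choose_spec

variable (L) in
/-- The longest element, a representative and the opposition involution. -/
noncomputable def lng : L.R.Aut × G × Equiv.Perm (Fin L.R.r) := Classical.epsilon fun q =>
  L.R.Lg Set.univ q.1 ∧ q.2.1 ∈ L.Gp ∧ L.Rep q.2.1 q.1 ∧ ∀ i, q.1 (L.R.α (q.2.2 i)) = -L.R.α i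

variable (L) in
/-- **The flag data of a linear package.** -/
noncomputable def fl : FlD k G L.R.r where
  Z := L.Z0
  Up := L.Up
  Um := L.Um
  c := of fun j i => (L.χ j i : ℝ)
  E j := L.EE j
  V := L.VV
  v j := L.ov j 1
  φ j := (ContinuousLinearMap.proj Subtype.val).comp (L.EE j).subtypeL
  lo := L.lo
  up := L.up
  b i := L.τ (L.R.α i) (unif k)⁻¹
  β := -Real.log ‖(unif k : k)‖
  n₀ := L.lng.2.1
  ι := L.lng.2.2

theorem fl_Z : L.fl.Z = L.Z0 := rfl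
theorem fl_Up : L.fl.Up = L.Up := rfl
theorem fl_Um : L.fl.Um = L.Um := rfl
theorem fl_b (i : Fin L.R.r) : L.fl.b i = L.τ (L.R.α i) (unif k)⁻¹ := rfl

theorem fl_Vv (j : Fin L.R.r) (g : G) : L.fl.V j g (L.fl.v j) = L.ov j g :=
  (VV_ov j g 1).trans (by rw [mul_one])

theorem fl_Δ (j : Fin L.R.r) (g : G) : L.fl.Δ j g = L.Δ j g := congrArg (L.fl.φ j) (fl_Vv j g)

theorem fl_ω (x : Fin L.R.r → ℝ) (j : Fin L.R.r) : L.fl.ω x j = pr (L.χ j) x := rfl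

theorem fl_v (a : b ∈ L.P (Pi.single j 1)) : L.fl.V j b (L.fl.v j) = L.Δ j b • L.fl.v j :=
  (VV_ov j b 1).trans ((congrArg _ ((mul_one b).trans (one_mul b).symm)).trans (ov_P a 1))

theorem fl_φ (a : b ∈ L.P (-Pi.single j 1)) (x : L.fl.E j) :
    L.fl.φ j (L.fl.V j b x) = L.Δ j b * L.fl.φ j x :=
  ov_ext (f := (L.fl.φ j).toLinearMap ∘ₗ (L.VV j b).toLinearMap)
    (f' := L.Δ j b • (L.fl.φ j).toLinearMap)
    (fun g => (congrArg (L.fl.φ j) (VV_ov j b g)).trans (Δ_left a g)) x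

theorem cast_α (i : Fin L.R.r) : (fun j => (L.R.α i j : ℝ)) = Pi.single i 1 := funext fun j => by
  simp [RS.α_apply, Pi.single_apply]

namespace Ok

variable (H : L.Ok)
include H

theorem lng_spec : L.R.Lg Set.univ L.lng.1 ∧ L.fl.n₀ ∈ L.Gp ∧ L.Rep L.fl.n₀ L.lng.1 ∧
    ∀ i, L.lng.1 (L.R.α (L.fl.ι i)) = -L.R.α i :=
  let ⟨w, a, n, c, d⟩ := H.exists_n0
  let ⟨ι, e⟩ := exists_ι H.root a
  Classical.epsilon_spec (p := fun q : L.R.Aut × G × Equiv.Perm (Fin L.R.r) => L.R.Lg Set.univ q.1 ∧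
    q.2.1 ∈ L.Gp ∧ L.Rep q.2.1 q.1 ∧ ∀ i, q.1 (L.R.α (q.2.2 i)) = -L.R.α i)
    ⟨(w, n, ι), a, H.GJ_univ ▸ c, d, e⟩

theorem fl_Ω : L.fl.Ω = L.Ω := Set.ext fun g => by
  simp only [H.mem_Ω_Δ, FlD.Ω, Set.mem_setOf_eq, fl_Δ]

theorem pr_ℓ (j : Fin L.R.r) (g : G) : pr (L.χ j) (L.fl.ℓ g) = Real.log ‖L.Δ j g‖ := by
  rw [← fl_ω, FlD.ω, FlD.ℓ, FlD.co, mulVec_mulVec, mul_nonsing_inv L.fl.c (Ne.isUnit H.χ_det),
    one_mulVec, fl_Δ]

theorem ℓ_ext {x : Fin L.R.r → ℝ} (e : ∀ j, Real.log ‖L.Δ j g‖ = pr (L.χ j) x) : L.fl.ℓ g = x := by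
  rw [FlD.ℓ, FlD.co, show (fun j => Real.log ‖L.fl.Δ j g‖) = L.fl.c *ᵥ x from
    funext fun j => fl_Δ j g ▸ e j, mulVec_mulVec, nonsing_inv_mul L.fl.c (Ne.isUnit H.χ_det),
    one_mulVec]

theorem norm_Δ (a : z ∈ L.Z0) (j : Fin L.R.r) : ‖L.Δ j z‖ = Real.exp (pr (L.χ j) (L.fl.ℓ z)) := by
  rw [H.pr_ℓ, Real.exp_log (norm_pos_iff.2 (Δ_ne (Z0_le_P _ a)))]

theorem ℓ_mul (a : z ∈ L.Z0) (c : z' ∈ L.Z0) : L.fl.ℓ (z * z') = L.fl.ℓ z + L.fl.ℓ z' :=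
  H.ℓ_ext fun j => by
    rw [Δ_left (Z0_le_P _ a), norm_mul, H.norm_Δ a, H.norm_Δ c, ← Real.exp_add, Real.log_exp, pr_add']

theorem log_prod (μ : L.R.Q) (t : Fin L.R.r → kˣ) :
    Real.log ‖((∏ i, t i ^ μ i : kˣ) : k)‖ = pr μ fun i => Real.log ‖(t i : k)‖ := by
  rw [Units.coe_prod, norm_prod, Real.log_prod fun i _ => norm_ne_zero_iff.2 (Units.ne_zero _)]
  simp only [Units.val_zpow_eq_zpow_val, norm_zpow, Real.log_zpow, pr]

theorem ℓ_σ (t : Fin L.R.r → kˣ) : L.fl.ℓ (L.σ t) = fun i => Real.log ‖(t i : k)‖ :=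
  H.ℓ_ext fun j => by rw [H.Δ_σ, H.log_prod]

theorem ℓ_τ (y : L.R.Q) (t : kˣ) : L.fl.ℓ (L.τ y t) = fun i => y i * Real.log ‖(t : k)‖ := by
  simp only [H.τ_eq_σ, H.ℓ_σ, Units.val_zpow_eq_zpow_val, norm_zpow, Real.log_zpow]

theorem P_of_v {d : k} (e : L.fl.V j g (L.fl.v j) = d • L.fl.v j) : g ∈ L.P (Pi.single j 1) :=
  H.mem_P_of_mv (congrArg Subtype.val ((fl_Vv j g).symm.trans e))

theorem P_of_φ {d : k} (e : ∀ x, L.fl.φ j (L.fl.V j g x) = d * L.fl.φ j x) :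
    g ∈ L.P (-Pi.single j 1) :=
  H.mem_P_of_Δ fun x => (congrArg (L.fl.φ j) (VV_ov j g x)).symm.trans (e (L.ov j x))

theorem fl_P {θ : Finset (Fin L.R.r)} : g ∈ L.fl.P θ ↔ ∀ j ∈ θ, g ∈ L.P (Pi.single j 1) :=
  forall₂_congr fun j _ => ⟨fun ⟨_, e⟩ => H.P_of_v e, fun a => ⟨_, fl_v a⟩⟩

theorem fl_Pm {θ : Finset (Fin L.R.r)} : g ∈ L.fl.Pm θ ↔ ∀ j ∈ θ, g ∈ L.P (-Pi.single j 1) :=
  forall₂_congr fun j _ => ⟨fun ⟨_, e⟩ => H.P_of_φ e, fun a => ⟨_, fl_φ a⟩⟩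

theorem fl_B : L.fl.P Finset.univ = L.B := Subgroup.ext fun _ => by simp [H.fl_P, mem_B_iff]

theorem fl_Bm : L.fl.Pm Finset.univ = L.Bm := Subgroup.ext fun _ => by simp [H.fl_Pm, mem_Bm_iff]

theorem τ_comm_iff {y : L.R.Q} {t : kˣ} (ht : ‖(t : k)‖ ≠ 1) :
    L.τ y t * g = g * L.τ y t ↔ g ∈ L.Z fun j => (y j : ℝ) :=
  ⟨fun e => sup_iff.2 fun x z c => by
    have := H.τ_conj y t g x z
    rw [e, mul_inv_cancel_right, eq_comm, mul_eq_right₀ c] at this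
    have := congrArg norm this
    rw [Units.val_zpow_eq_zpow_val, norm_zpow, norm_one,
      zpow_eq_one_iff_right₀ (norm_nonneg _) ht] at this
    rw [SetLike.mem_coe, mem_dEq, pr_cast, this, Int.cast_zero], H.τ_comm t⟩

theorem fl_L (θ : Finset (Fin L.R.r)) : L.fl.L θ = L.LJ (θ : Set _)ᶜ := Subgroup.ext fun g => by
  have : ‖(((unif k)⁻¹ : kˣ) : k)‖ ≠ 1 := by
    rw [Units.val_inv_eq_inv_val, norm_inv, Ne, inv_eq_one]
    exact unif_lt.ne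
  simp only [FlD.mem_L, fl_b, H.τ_comm_iff this, cast_α]
  refine ⟨fun a => sup_iff.2 fun x y e j c => ?_, fun a j c => sup_iff.2 fun x y e => ?_⟩
  · have := sup_iff.1 (a j (not_not.1 c)) x y e
    rwa [SetLike.mem_coe, mem_dEq, pr_single', Int.cast_eq_zero] at this
  · rw [SetLike.mem_coe, mem_dEq, pr_single', Int.cast_eq_zero]
    exact sup_iff.1 a x y e j (not_not.2 c)

theorem fl_L₁ (i : Fin L.R.r) : L.fl.L₁ i = L.LJ {i} := by
  rw [FlD.L₁, H.fl_L]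
  congr 1
  ext j
  simp

theorem fl_a (t : Fin L.R.r → ℤ) : L.fl.a t = L.τ t (unif k)⁻¹ := by
  simp only [FlD.a, fl_b, ← H.τ_zpow, H.τ_eq_σ t, σ]

end Ok

namespace LP

variable [TopologicalSpace G] (H : L.LP)
include H

theorem cont_mv (j : Fin L.R.r) (x : L.IJ j → Fin L.n) : Continuous fun g => L.mv j g x :=
  (continuous_matrix fun (p q : L.IJ j) => H.cont_ent (x p) q.1).matrix_det

theorem cont_ℓ : ContinuousOn L.fl.ℓ L.Z0 :=
  FlD.cont_co.comp_continuousOn (continuousOn_pi.2 fun j => by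
    simp only [fl_Δ]
    exact (H.cont_mv j _).norm.continuousOn.log fun z a => norm_ne_zero_iff.2 (Δ_ne (Z0_le_P _ a)))

theorem add_ext {f : G → ℝ} (h1 : ∀ x ∈ L.Z0, ∀ y ∈ L.Z0, f (x * y) = f x + f y)
    (h2 : ContinuousOn f L.Z0) (h3 : ∀ t, f (L.σ t) = 0) (a : z ∈ L.Z0) : f z = 0 := by
  obtain ⟨C, c1, c2, c3⟩ := H.cpt
  obtain ⟨D, hD⟩ := c1.bddAbove_image (h2.mono c2).abs
  have h4 : ∀ m : ℕ, f (z ^ (m + 1)) = (m + 1 : ℕ) * f z := fun m => by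
    induction m with
    | zero => simp
    | succ m ih => rw [pow_succ, h1 _ (pow_mem a _) z a, ih]; push_cast; ring
  by_contra e
  obtain ⟨m, hm⟩ := exists_nat_gt (D / |f z|)
  obtain ⟨s, d, c, d', e'⟩ := c3 _ (pow_mem a (m + 1))
  obtain ⟨t, rfl⟩ := H.ok.mem_S.1 d
  have h5 : |f c| ≤ D := hD ⟨c, d', rfl⟩
  rw [← zero_add (f c), ← h3 t, ← h1 _ (H.ok.σ_mem_Z0 t) c (c2 d'), ← e', h4, abs_mul,
    Nat.abs_cast] at h5
  rw [div_lt_iff₀ (abs_pos.2 e)] at hm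
  push_cast at h5
  nlinarith [abs_nonneg (f z)]

theorem ℓ_conj (a : L.Rep n w) (c : z ∈ L.Z0) : L.fl.ℓ (n⁻¹ * z * n) = tw w (L.fl.ℓ z) := by
  have := H.top
  have h1 : ∀ x ∈ L.Z0, n⁻¹ * x * n ∈ L.Z0 := fun x d => by simpa using a.inv.conj_Z0 d
  refine funext fun i => sub_eq_zero.1 (H.add_ext
    (f := fun z => L.fl.ℓ (n⁻¹ * z * n) i - pr (w (L.R.α i)) (L.fl.ℓ z)) (fun x d y e => ?_) ?_ ?_ c)
  · rw [show n⁻¹ * (x * y) * n = n⁻¹ * x * n * (n⁻¹ * y * n) by group, H.ok.ℓ_mul (h1 x d) (h1 y e),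
      H.ok.ℓ_mul d e, pr_add', Pi.add_apply]
    ring
  · exact (continuousOn_pi.1 (H.cont_ℓ.comp (by fun_prop) h1) i).sub (continuousOn_finset_sum _
      fun j _ => continuousOn_const.mul (continuousOn_pi.1 H.cont_ℓ j))
  intro t
  have := H.ok.mem_S.2 ⟨t, rfl⟩
  generalize L.σ t = s at this
  induction this using Subgroup.closure_induction with
  | mem x hx =>
    obtain ⟨y, t, rfl⟩ := hx
    simp [H.ok.rep_τ a, H.ok.ℓ_τ, pr, dotProduct, Finset.sum_mul, mul_assoc]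
  | one => simp [← H.ok.τ_zero 1, H.ok.rep_τ a, H.ok.ℓ_τ, pr]
  | mul x y d e f f' =>
    have d := H.ok.S_le_Z0 d
    have e := H.ok.S_le_Z0 e
    rw [show n⁻¹ * (x * y) * n = n⁻¹ * x * n * (n⁻¹ * y * n) by group, H.ok.ℓ_mul (h1 x d) (h1 y e),
      H.ok.ℓ_mul d e, pr_add', Pi.add_apply]
    linarith
  | inv x d f =>
    have d := H.ok.S_le_Z0 d
    have h2 : ∀ x ∈ L.Z0, L.fl.ℓ x⁻¹ = -L.fl.ℓ x := fun x d => eq_neg_of_add_eq_zero_left (by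
      rw [← H.ok.ℓ_mul (inv_mem d) d, inv_mul_cancel, ← H.ok.τ_zero 1, H.ok.ℓ_τ]
      simp [funext_iff])
    rw [show n⁻¹ * x⁻¹ * n = (n⁻¹ * x * n)⁻¹ by group, h2 _ (h1 x d), h2 x d, pr_neg', Pi.neg_apply]
    linarith

theorem ent_le : ∃ D : ℝ, 0 ≤ D ∧
    ∀ z ∈ L.Z0, ∀ x y, ‖L.ρ z x y‖ ≤ D * Real.exp (pr (L.wt x) (L.fl.ℓ z)) := by
  obtain ⟨C, c1, c2, c3⟩ := H.cpt
  obtain ⟨D, d1, d2⟩ := cpt_up c1 (fun (q : Fin L.n × Fin L.n) c =>
    ‖L.ρ c q.1 q.2‖ * Real.exp (-pr (L.wt q.1) (L.fl.ℓ c))) fun q =>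
      (H.cont_ent _ _).norm.continuousOn.mul (continuousOn_finset_sum _ fun j _ =>
        continuousOn_const.mul (continuousOn_pi.1 (H.cont_ℓ.mono c2) j)).neg.rexp
  refine ⟨D, by linarith, fun z a x y => ?_⟩
  obtain ⟨s, e, c, e', rfl⟩ := c3 z a
  obtain ⟨t, rfl⟩ := H.ok.mem_S.1 e
  have := d2 (x, y) c e'
  rw [Real.exp_neg, ← div_eq_mul_inv, div_le_iff₀ (Real.exp_pos _)] at this
  rw [map_mul, H.ok.rho_σ, diagonal_mul, norm_mul, H.ok.ℓ_mul (H.ok.σ_mem_Z0 t) (c2 e'), pr_add',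
    H.ok.ℓ_σ, ← H.ok.log_prod, Real.exp_add, Real.exp_log (norm_pos_iff.2 (Units.ne_zero _)),
    mul_left_comm]
  exact mul_le_mul_of_nonneg_left this (norm_nonneg _)

theorem wt_le (x : L.EE j) {a : L.IJ j → Fin L.n} (c : ¬ ∑ p, L.wt (a p) + L.R.α j ≤ L.χ j) :
    (x - L.fl.φ j x • L.ov j 1).1 a = 0 := by
  refine sub_eq_zero.2 (ov_ext (f := LinearMap.proj a ∘ₗ (L.EE j).subtype)
    (f' := (L.fl.φ j).toLinearMap.smulRight (L.mv j 1 a)) (fun g => ?_) x)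
  show L.mv j g a = L.Δ j g * L.mv j 1 a
  by_cases e : ∃ s : Equiv.Perm (L.IJ j), a = Subtype.val ∘ s
  · obtain ⟨s, rfl⟩ := e
    rw [mv_perm, mv_perm, Δ_one, mul_one, mul_comm]
  have h1 : ∀ b ∈ L.Bm, L.mv j b a = 0 := fun b d => by_contra fun f => (mv_Bm d f).elim e c
  rw [h1 1 (one_mem _), mul_zero]
  refine H.dense_Ω.induction (P := fun g => L.mv j g a = 0) (fun g d => ?_)
    (isClosed_eq (H.cont_mv j a) continuous_const) g
  obtain ⟨b, f, u, f', rfl⟩ := H.ok.mem_Ω'.1 d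
  rw [mv_P (mem_B_iff.1 (Up_le_B f') j), Pi.smul_apply, h1 b f, smul_zero]

theorem con (j : Fin L.R.r) : ∃ C : ℝ, ∀ z, L.fl.Dom z →
    ‖L.fl.V j z - L.fl.Δ j z • L.fl.pr j‖ ≤ C * (‖L.fl.Δ j z‖ * Real.exp (-L.fl.ℓ z j)) := by
  obtain ⟨D, d1, d2⟩ := H.ent_le
  let A := ‖ContinuousLinearMap.id k (L.fl.E j) - L.fl.pr j‖
  refine ⟨Fintype.card (L.IJ j → Fin L.n) * D ^ Fintype.card (L.IJ j) * A, fun z a =>
    ContinuousLinearMap.opNorm_le_bound _ (by positivity) fun (x : L.EE j) => ?_⟩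
  have h1 : (L.fl.V j z - L.fl.Δ j z • L.fl.pr j) x = L.VV j z (x - L.fl.φ j x • L.ov j 1) := by
    rw [map_sub, map_smul, VV_ov, mul_one, ← one_mul z, ov_P (Z0_le_P _ a.1), one_mul, fl_Δ,
      smul_comm]
    rfl
  have h2 : ‖x - L.fl.φ j x • L.ov j 1‖ ≤ A * ‖x‖ :=
    (ContinuousLinearMap.id k (L.fl.E j) - L.fl.pr j).le_opNorm x
  have h3 := fun c => H.wt_le x (a := c)
  rw [h1]
  generalize x - L.fl.φ j x • L.ov j 1 = y at h2 h3
  have hA : 0 ≤ A := norm_nonneg _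
  show ‖fun p : L.IJ j → Fin L.n => ∑ q, (∏ i, L.ρ z (p i) (q i)) * y.1 q‖ ≤ _ * ‖x‖
  refine (pi_norm_le_iff_of_nonneg (by positivity)).2 fun p => (norm_sum_le _ _).trans
    ((Finset.sum_le_card_nsmul _ _ (D ^ Fintype.card (L.IJ j) *
      (‖L.fl.Δ j z‖ * Real.exp (-L.fl.ℓ z j)) * (A * ‖x‖)) fun q _ => ?_).trans_eq (by
        rw [nsmul_eq_mul, Finset.card_univ]; ring))
  by_cases e : (∏ i, L.ρ z (p i) (q i)) * y.1 q = 0
  · rw [e, norm_zero]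
    positivity
  rw [norm_mul, norm_prod]
  refine mul_le_mul ((Finset.prod_le_prod (fun _ _ => norm_nonneg _) fun i _ => d2 z a.1 _ _).trans ?_)
    ((norm_le_pi_norm y.1 q).trans h2) (norm_nonneg _) (by positivity)
  rw [Finset.prod_mul_distrib, Finset.prod_const, Finset.card_univ, ← Real.exp_sum, ← pr_sum, fl_Δ,
    H.ok.norm_Δ a.1, ← Real.exp_add, Finset.sum_congr rfl fun i _ => not_not.1 fun c =>
      Finset.prod_ne_zero_iff.1 (left_ne_zero_of_mul e) i (Finset.mem_univ _) (mem_Z0.1 a.1 _ _ c)]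
  refine mul_le_mul_of_nonneg_left (Real.exp_le_exp.2 ?_) (by positivity)
  have := pr_nonneg (sub_nonneg.2 (not_not.1 fun c => right_ne_zero_of_mul e (h3 q c))) a.2
  rw [pr_sub, pr_add, pr_α] at this
  linarith

theorem low (a : z ∈ L.Z0) (j : Fin L.R.r) :
    ‖L.fl.Δ j z‖ * Real.exp (-L.fl.ℓ z j) ≤ 1 * ‖L.fl.V j z‖ := by
  have h1 : ∀ n (w : L.R.Aut), L.Rep n w → Real.exp (pr (w (L.χ j)) (L.fl.ℓ z)) ≤ ‖L.VV j z‖ := by
    intro n w c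
    have d : n⁻¹ * z * n ∈ L.Z0 := by simpa using c.inv.conj_Z0 a
    have h2 := (L.VV j z).le_opNorm (L.ov j n)
    rw [VV_ov, show z * n = n * (n⁻¹ * z * n) by group, ov_P (Z0_le_P _ d), norm_smul,
      H.ok.norm_Δ d, H.ℓ_conj c a, pr_tw] at h2
    refine le_of_mul_le_mul_right h2 (norm_pos_iff.2 fun e => one_ne_zero (α := k) ?_)
    rw [← Δ_one (L := L) j, ← inv_mul_cancel n]
    exact (congrArg (L.fl.φ j) (VV_ov j n⁻¹ n)).symm.trans (by rw [e, map_zero]; exact map_zero _)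
  rw [one_mul, fl_Δ, H.ok.norm_Δ a, ← Real.exp_add]
  rcases le_total 0 (L.fl.ℓ z j) with e | e
  · exact (Real.exp_le_exp.2 (by rw [RS.one_app]; linarith)).trans (h1 1 1 (rep_one.2 (one_mem _)))
  refine (Real.exp_le_exp.2 ?_).trans (h1 _ _ (H.ok.rep_nn j))
  have : (1 : ℝ) ≤ L.R.pr (L.χ j) j := by exact_mod_cast H.ok.χ_pr_pos j
  rw [H.ok.root.sE_eq, pr_sub, pr_zsmul, pr_α]
  nlinarith

/-- **The flag package.** -/
theorem fl : Fl L.fl where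
  c_pos j i := Int.cast_pos.2 (H.ok.χ_pos j i)
  c_det := H.ok.χ_det
  contV j := by
    have := H.prop
    refine continuous_clm_apply.2 fun x => Continuous.subtype_mk (continuous_pi fun a => ?_) _
    exact continuous_finset_sum _ fun b _ =>
      (continuous_finset_prod _ fun i _ => H.cont_ent _ _).mul continuous_const
  φv j := Δ_one j
  span j := (congrArg (fun f => Submodule.span k (Set.range f)) (funext (fl_Vv j))).trans (span_ov j)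
  upv u a j := by rw [fl_v (mem_B_iff.1 (Up_le_B a) j), Δ_Up a, one_smul]
  umφ u a j x := by rw [fl_φ (mem_Bm_iff.1 (Um_le_Bm a) j), Δ_Um a, one_mul]
  zv z a j := by rw [fl_v (Z0_le_P _ a), fl_Δ]
  zφ z a j x := by rw [fl_φ (Z0_le_P _ a), fl_Δ]
  zup _ a _ c := Z0_conj_UD a c
  zum _ a _ c := Z0_conj_UD a c
  clZ := H.closed_PD _
  clUp := H.closed_UD _
  clUm := H.closed_UD _
  lo_mem _ a := (H.ok.cell_spec (H.ok.fl_Ω ▸ a)).1
  up_mem _ a := (H.ok.cell_spec (H.ok.fl_Ω ▸ a)).2.2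
  mid_mem _ a := (H.ok.cell_spec (H.ok.fl_Ω ▸ a)).2.1
  lo_cont := H.ok.fl_Ω ▸ H.cont_lo
  up_cont := H.ok.fl_Ω ▸ H.cont_up
  um_inj _ a c := H.ok.eq_one_of_Um a (H.ok.fl_B.le fun j _ => ⟨1, (c j).trans (one_smul _ _).symm⟩)
  up_inj _ a c := H.ok.eq_one_of_Up a (H.ok.fl_Bm.le fun j _ =>
    ⟨1, fun x => (c j x).trans (one_mul _).symm⟩)
  dense := H.ok.fl_Ω ▸ H.dense_Ω
  iwa :=
    let ⟨C, a, c⟩ := H.iwa
    ⟨C, a, fun g =>
      let ⟨x, d, _, e, f⟩ := c g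
      let ⟨z, d', u, e', f'⟩ := H.ok.mem_B.1 e
      ⟨x, d, z, d', u, e', by rw [f, f', mul_assoc]⟩⟩
  n₀Z z := ⟨H.ok.lng_spec.2.2.1.conj_Z0, fun a => by
    simpa [mul_assoc, fl_Z] using H.ok.lng_spec.2.2.1.inv.conj_Z0 a⟩
  n₀up u :=
    let ⟨a, _, c, _⟩ := H.ok.lng_spec
    ⟨H.ok.lg_Up c a, fun d => by simpa [mul_assoc, fl_Up] using H.ok.lg_Um (H.ok.lg_inv c a) a d⟩
  n₀um u :=
    let ⟨a, _, c, _⟩ := H.ok.lng_spec
    ⟨H.ok.lg_Um c a, fun d => by simpa [mul_assoc, fl_Um] using H.ok.lg_Up (H.ok.lg_inv c a) a d⟩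
  n₀ℓ z d i := by
    obtain ⟨a, -, c, e⟩ := H.ok.lng_spec
    have := H.ℓ_conj (H.ok.lg_inv c a) d
    rw [inv_inv] at this
    rw [this, tw, e, pr_neg, pr_α]
  zprop R := by
    obtain ⟨D, d1, d2⟩ := H.ent_le
    refine (H.cpt_norm (D * Real.exp ((∑ x, ∑ i, |(L.wt x i : ℝ)|) * R))).of_isClosed_subset
      (H.cont_ℓ.preimage_isClosed_of_isClosed (H.closed_PD _) 
        (t := {x : Fin L.R.r → ℝ | ∀ i, |x i| ≤ R})
        (Set.setOf_forall _ ▸ isClosed_iInter fun i =>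
          isClosed_le (by fun_prop) continuous_const)) fun z a x y =>
      (d2 z a.1 x y).trans (mul_le_mul_of_nonneg_left (Real.exp_le_exp.2 ?_) d1)
    have h0 : 0 ≤ R := (abs_nonneg _).trans (a.2 ⟨0, H.ok.root.pos⟩)
    refine le_trans ?_ (mul_le_mul_of_nonneg_right (Finset.single_le_sum (fun x _ =>
      Finset.sum_nonneg fun i _ => abs_nonneg (L.wt x i : ℝ)) (Finset.mem_univ x)) h0)
    rw [Finset.sum_mul]
    exact Finset.sum_le_sum fun i _ => (le_abs_self _).trans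
      ((abs_mul _ _).trans_le (mul_le_mul_of_nonneg_left (a.2 i) (abs_nonneg _)))
  β_pos := neg_pos.2 (Real.log_neg (norm_pos_iff.2 (Units.ne_zero _)) unif_lt)
  bZ _ := H.ok.τ_mem_Z0 _ _
  bcomm _ _ a := H.ok.τ_comm0 _ _ a
  bℓ i := by
    rw [fl_b, H.ok.ℓ_τ]
    ext j
    by_cases e : j = i <;> simp [RS.α_apply, Pi.single_apply, LD.fl, e]
  par j g d a := by
    obtain ⟨z, -, c⟩ := H.contr_P unif_lt (cast_α j ▸ H.ok.P_of_v a)
    exact ⟨z, by simpa only [fl_b, H.ok.τ_inv, inv_pow, inv_inv] using c⟩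
  par' j g d a := by
    obtain ⟨z, -, c⟩ := H.contr_P (y := -L.R.α j) (g := g) unif_lt (by
      rw [show (fun x => ((-L.R.α j) x : ℝ)) = -Pi.single j 1 by rw [← cast_α]; ext; simp]
      exact H.ok.P_of_φ a)
    exact ⟨z, by simpa only [fl_b, H.ok.τ_inv, H.ok.τ_neg] using c⟩
  low := ⟨1, fun _ a j => H.low a j⟩
  con := by
    choose C c using H.con
    obtain ⟨D, d⟩ := (Set.finite_range C).bddAbove
    exact ⟨D, fun z a j => (c j z a).trans (mul_le_mul_of_nonneg_right (d ⟨j, rfl⟩) (by positivity))⟩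

/-- **The panel package.** -/
theorem pan : ∃ N τ w, Pan L.fl L.nn N τ w := by
  obtain ⟨a0, -, c0, -⟩ := H.ok.lng_spec
  obtain ⟨N, τ, h1, h2⟩ := exists_word H.ok.root a0.1
  refine ⟨N, τ, pw L.nn τ, fun i => ?_, fun i z => ⟨(H.ok.rep_nn i).conj_Z0, fun a => ?_⟩,
    fun i => ?_, fun i u a => H.ok.UJ_conj (H.ok.rep_nn i) (H.ok.fl_L₁ i ▸ a), fun i l a => ?_,
    fun S S' a c => H.ok.le_of_nn (H.ok.fl_B ▸ a) (H.ok.fl_B ▸ c), rfl, fun _ => rfl,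
    (c0.div (h1 ▸ H.ok.rep_pw τ N)).2, fun n a m c d => ?_⟩
  · obtain ⟨u, a, c, v, d, v', d', e, -⟩ := H.ok.nn_spec i
    have f := X_le_LJ (L := L) (RS.In_α (J := {i}) rfl).neg
    rw [H.ok.fl_L₁]
    exact ⟨u, H.ok.Xα_le_Up i a, v, H.ok.Xα_le_Um i d, v', H.ok.Xα_le_Um i d',
      X_le_LJ (RS.In_α (J := {i}) rfl) a, f d, f d', c, e⟩
  · simpa [mul_assoc, fl_Z] using (H.ok.rep_nn i).inv.conj_Z0 a
  · simpa [fl_Z] using ((H.ok.rep_nn i).div (H.ok.rep_nn_inv i)).1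
  · rw [H.ok.fl_B, H.ok.fl_Ω]
    rw [H.ok.fl_L₁] at a
    refine (H.ok.P_hh (Z_le_P _ (LJ_le_Z _ (hh_zero i ▸ a)))).imp_right ?_
    rintro ⟨x, c, b, d, rfl⟩
    exact H.ok.mem_Ω.2 ⟨_, H.ok.Xα_le_Um i (H.ok.sE_conj (H.ok.rep_nn_inv i) c), b, d, by group⟩
  have h3 : ∀ n < N, pw L.R.sE τ n (L.R.α (τ n)) ∈ L.R.Pos := fun n a =>
    ⟨H.ok.root.map_mem (pw_mem τ n) (H.ok.root.simple _), h2 n a⟩
  obtain ⟨y, e, e'⟩ := exists_sep H.ok.root (h3 n a) (h3 m c) (d.lt_or_gt.elim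
    (fun f => word_ne H.ok.root h2 f c) fun f => (word_ne H.ok.root h2 f a).symm)
  refine ⟨_, H.ok.τ_mem_Z0 y (unif k), ?_, ?_⟩
  · rw [H.ok.rep_τ (H.ok.rep_pw τ n), H.ok.ℓ_τ]
    exact mul_ne_zero (Int.cast_ne_zero.2 e)
      (Real.log_neg (norm_pos_iff.2 (Units.ne_zero _)) unif_lt).ne
  · simp [H.ok.rep_τ (H.ok.rep_pw τ m), H.ok.ℓ_τ, e']

/-- **Coarse Cartan decomposition.** -/
theorem kak : ∃ C : Set G, IsCompact C ∧
    ∀ g, ∃ x ∈ C, ∃ t : L.R.Q, 0 ≤ t ∧ ∃ y ∈ C, g = x * L.τ t (unif k)⁻¹ * y := by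
  have := H.top
  have := H.prop
  have := H.t2
  simpa only [H.ok.fl_a] using H.fl.kak

end LP

end LD

end Vale.Agent.P092GP
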