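import Vale.Agent.P092GP.Defs
import Vale.Agent.P183CH2.Len

/-!
P092, group package: supports, types, the action of the Weyl group on cocharacters, the torus.
-/

set_option autoImplicit false
set_option linter.all false

namespace Vale.Agent.P092GP

open Matrix Vale.Agent.P183CH

section pr

variable {r : ℕ} {μ ν : Fin r → ℤ} {h h' : Fin r → ℝ}

theorem pr_neg (μ : Fin r → ℤ) (h : Fin r → ℝ) : pr (-μ) h = -pr μ h := by simp [pr]

theorem pr_sub (μ ν : Fin r → ℤ) (h : Fin r → ℝ) : pr (μ - ν) h = pr μ h - pr ν h := by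
  rw [sub_eq_add_neg, pr_add, pr_neg, sub_eq_add_neg]

theorem pr_zsmul (c : ℤ) (μ : Fin r → ℤ) (h : Fin r → ℝ) : pr (c • μ) h = c * pr μ h := by
  simp [pr, Finset.mul_sum, mul_assoc]

theorem pr_nsmul (c : ℕ) (μ : Fin r → ℤ) (h : Fin r → ℝ) : pr (c • μ) h = c * pr μ h := by
  simp [pr, Finset.mul_sum, mul_assoc]

theorem pr_neg' (μ : Fin r → ℤ) (h : Fin r → ℝ) : pr μ (-h) = -pr μ h := by simp [pr]

theorem pr_add' (μ : Fin r → ℤ) (h h' : Fin r → ℝ) : pr μ (h + h') = pr μ h + pr μ h' := by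
  simp [pr, mul_add, Finset.sum_add_distrib]

theorem pr_smul' (μ : Fin r → ℤ) (c : ℝ) (h : Fin r → ℝ) : pr μ (c • h) = c * pr μ h := by
  simp [pr, Finset.mul_sum, mul_left_comm]

theorem pr_single (j : Fin r) (h : Fin r → ℝ) : pr (Pi.single j 1) h = h j := by
  simp [pr, Pi.single_apply]

theorem pr_single' (μ : Fin r → ℤ) (j : Fin r) : pr μ (Pi.single j 1) = μ j := by
  simp [pr, Pi.single_apply]

theorem pr_cast (μ h : Fin r → ℤ) : pr μ (fun j => (h j : ℝ)) = ((μ ⬝ᵥ h : ℤ) : ℝ) := by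
  simp [pr, dotProduct]

theorem pr_sum {ι : Type} (s : Finset ι) (f : ι → Fin r → ℤ) (h : Fin r → ℝ) :
    pr (∑ i ∈ s, f i) h = ∑ i ∈ s, pr (f i) h := by
  classical
  induction s using Finset.induction_on with
  | empty => simp [pr_zero]
  | insert a s e ih => rw [Finset.sum_insert e, Finset.sum_insert e, pr_add, ih]

theorem pr_nonneg (h1 : 0 ≤ μ) (h2 : 0 ≤ h) : 0 ≤ pr μ h :=
  Finset.sum_nonneg fun j _ => mul_nonneg (Int.cast_nonneg_iff.2 (h1 j)) (h2 j)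

theorem pr_nonpos (h1 : μ ≤ 0) (h2 : 0 ≤ h) : pr μ h ≤ 0 := by
  have := pr_nonneg (neg_nonneg.2 h1) h2
  rwa [pr_neg, neg_nonneg] at this

theorem pr_pos (h1 : 0 < μ) (h2 : ∀ j, 0 < h j) : 0 < pr μ h := by
  obtain ⟨h3, j, hj⟩ := Pi.lt_def.1 h1
  exact Finset.sum_pos' (fun j _ => mul_nonneg (Int.cast_nonneg_iff.2 (h3 j)) (h2 j).le)
    ⟨j, Finset.mem_univ _, mul_pos (Int.cast_pos.2 hj) (h2 j)⟩

theorem pr_eq_zero_iff (h1 : 0 ≤ μ) (h2 : 0 ≤ h) : pr μ h = 0 ↔ ∀ j, h j ≠ 0 → μ j = 0 := by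
  rw [pr, Finset.sum_eq_zero_iff_of_nonneg fun j _ =>
    mul_nonneg (Int.cast_nonneg_iff.2 (h1 j)) (h2 j)]
  simp only [Finset.mem_univ, true_imp_iff, mul_eq_zero, Int.cast_eq_zero]
  exact forall_congr' fun j => by tauto

theorem pr_eq_zero_of (e : ∀ j, h j ≠ 0 → μ j = 0) : pr μ h = 0 :=
  Finset.sum_eq_zero fun j _ => by
    by_cases c : h j = 0
    · rw [c, mul_zero]
    · rw [e j c, Int.cast_zero, zero_mul]

theorem mem_dGe : μ ∈ dGe h ↔ 0 ≤ pr μ h := Iff.rfl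
theorem mem_dEq : μ ∈ dEq h ↔ pr μ h = 0 := Iff.rfl
theorem mem_dGt : μ ∈ dGt h ↔ 0 < pr μ h := Iff.rfl
theorem mem_dNn : μ ∈ dNn r ↔ 0 ≤ μ := Iff.rfl
theorem mem_dNp : μ ∈ dNp r ↔ μ ≤ 0 := Iff.rfl
theorem mem_dPos : μ ∈ dPos r ↔ 0 < μ := Iff.rfl
theorem mem_dNeg : μ ∈ dNeg r ↔ μ < 0 := Iff.rfl
theorem mem_dRay : μ ∈ dRay ν ↔ ∃ c : ℕ, 0 < c ∧ μ = c • ν := Iff.rfl

end pr

section sup

variable {k Q : Type} [Field k] [AddCommGroup Q] {n : ℕ} {wt : Fin n → Q}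
  {D D' D'' : Set Q} {M M' X : Matrix (Fin n) (Fin n) k} {w w' : Q → Q}

theorem sup_iff : Sup wt D M ↔ ∀ a b, M a b ≠ 0 → wt a - wt b ∈ D :=
  forall₂_congr fun _ _ => not_imp_comm

theorem ty_iff : Ty wt w M ↔ ∀ a b, M a b ≠ 0 → wt a = w (wt b) :=
  forall₂_congr fun _ _ => not_imp_comm

theorem Sup.inter (h : Sup wt D M) (h' : Sup wt D' M) : Sup wt (D ∩ D') M :=
  sup_iff.2 fun a b c => ⟨sup_iff.1 h a b c, sup_iff.1 h' a b c⟩

theorem Sup.eq_zero (h : Sup wt ∅ M) : M = 0 := Matrix.ext fun a b => h a b (Set.notMem_empty _)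

theorem Sup.sum {ι : Type} {s : Finset ι} {f : ι → Matrix (Fin n) (Fin n) k}
    (h : ∀ i ∈ s, Sup wt D (f i)) : Sup wt D (∑ i ∈ s, f i) := fun a b c => by
  rw [Matrix.sum_apply]
  exact Finset.sum_eq_zero fun i hi => h i hi a b c

theorem Sup.diagonal (h : (0 : Q) ∈ D) (d : Fin n → k) : Sup wt D (diagonal d) := fun a b c =>
  diagonal_apply_ne _ fun e => c (by rw [e, sub_self]; exact h)

theorem exists_ne_of_mul {a b : Fin n} (h : (M * M') a b ≠ 0) : ∃ c, M a c ≠ 0 ∧ M' c b ≠ 0 := by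
  rw [Matrix.mul_apply] at h
  obtain ⟨c, -, hc⟩ := Finset.exists_ne_zero_of_sum_ne_zero h
  exact ⟨c, left_ne_zero_of_mul hc, right_ne_zero_of_mul hc⟩

theorem Ty.mul (h : Ty wt w M) (h' : Ty wt w' M') : Ty wt (w ∘ w') (M * M') :=
  ty_iff.2 fun a b e => by
    obtain ⟨c, h1, h2⟩ := exists_ne_of_mul e
    rw [ty_iff.1 h a c h1, ty_iff.1 h' c b h2]
    rfl

theorem Ty.congr (h : Ty wt w M) (e : ∀ b, w (wt b) = w' (wt b)) : Ty wt w' M :=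
  fun a b c => h a b (by rwa [e])

theorem ty_id : Ty wt id M ↔ Sup wt {0} M :=
  forall₂_congr fun a b => by simp [sub_eq_zero]

theorem Ty.inv (h : Ty wt w M) (e : M * M' = 1) (hw : Function.LeftInverse w' w) :
    Ty wt w' M' := by
  classical
  intro a b c
  have h1 : Matrix.diagonal (fun x => if w' (wt x) = wt a then (1 : k) else 0) * M =
      M * Matrix.diagonal fun x => if wt x = wt a then (1 : k) else 0 := by
    ext x y
    rw [diagonal_mul, mul_diagonal]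
    by_cases d : M x y = 0
    · simp [d]
    · rw [ty_iff.1 h x y d, hw, mul_comm]
  have h2 := congrArg (fun Y => (M' * Y * M') a b) h1
  simp only [← mul_assoc, mul_eq_one_comm.1 e, one_mul] at h2
  rw [mul_assoc, e, mul_one, mul_diagonal, diagonal_mul, if_neg (Ne.symm c), if_pos rfl] at h2
  simpa using h2.symm

theorem Ty.conj {f : Q →+ Q} (h : Ty wt f M) (h' : Ty wt w' M') (hw : Function.RightInverse w' f)
    (hX : Sup wt D X) (e : ∀ x ∈ D, f x ∈ D') : Sup wt D' (M * X * M') :=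
  sup_iff.2 fun a b c => by
    obtain ⟨d, h1, h2⟩ := exists_ne_of_mul c
    obtain ⟨x, h3, h4⟩ := exists_ne_of_mul h1
    have := e _ (sup_iff.1 hX x d h4)
    rwa [map_sub, ← ty_iff.1 h a x h3, ty_iff.1 h' d b h2, hw] at this

theorem exists_perm (h : M.det ≠ 0) : ∃ σ : Equiv.Perm (Fin n), ∀ b, M (σ b) b ≠ 0 := by
  rw [det_apply] at h
  obtain ⟨σ, -, hσ⟩ := Finset.exists_ne_zero_of_sum_ne_zero h
  exact ⟨σ, fun b => Finset.prod_ne_zero_iff.1 (right_ne_zero_of_smul hσ) b (Finset.mem_univ _)⟩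

variable {G : Type} [Group G] {ρ : G →* Matrix (Fin n) (Fin n) k} {g u : G}
  {E E' : AddSubmonoid Q} {F F' : AddSubsemigroup Q}

theorem rho_mul_inv (g : G) : ρ g * ρ g⁻¹ = 1 := by rw [← map_mul, mul_inv_cancel, map_one]

theorem rho_inv_mul (g : G) : ρ g⁻¹ * ρ g = 1 := by rw [← map_mul, inv_mul_cancel, map_one]

theorem rho_det_ne (g : G) : (ρ g).det ≠ 0 :=
  (isUnit_det_of_right_inverse (rho_mul_inv g)).ne_zero

theorem mem_PD : g ∈ PD wt ρ E ↔ Sup wt E (ρ g) := Iff.rfl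

theorem mem_UD : g ∈ UD wt ρ F ↔ Sup wt F (ρ g - 1) := Iff.rfl

theorem PD_mono (h : E ≤ E') : PD wt ρ E ≤ PD wt ρ E' := fun _ c => Sup.mono c h

theorem UD_mono (h : F ≤ F') : UD wt ρ F ≤ UD wt ρ F' := fun _ c => Sup.mono c h

theorem UD_le_PD (h : ∀ x ∈ F, x ∈ E) : UD wt ρ F ≤ PD wt ρ E := fun g c => by
  have := (Sup.mono (D' := E) c fun x d => h x d).add (Sup.one E.zero_mem)
  rwa [sub_add_cancel] at this

theorem PD_inf : PD wt ρ (E ⊓ E') = PD wt ρ E ⊓ PD wt ρ E' :=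
  le_antisymm (le_inf (PD_mono inf_le_left) (PD_mono inf_le_right)) fun _ c => Sup.inter c.1 c.2

theorem UD_inf : UD wt ρ (F ⊓ F') = UD wt ρ F ⊓ UD wt ρ F' :=
  le_antisymm (le_inf (UD_mono inf_le_left) (UD_mono inf_le_right)) fun _ c => Sup.inter c.1 c.2

/-- An element of `UD F` which lies in `PD E` lies in every `UD F'` with `F ∩ E ⊆ F'`. -/
theorem UD_of_PD (h : g ∈ UD wt ρ F) (h' : g ∈ PD wt ρ E) (e : ∀ x ∈ F, x ∈ E → x ∈ F') :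
    g ∈ UD wt ρ F' :=
  (Sup.inter h (Sup.sub h' (Sup.one E.zero_mem))).mono fun x c => e x c.1 c.2

theorem eq_one_of_UD (hρ : Function.Injective ρ) (h : g ∈ UD wt ρ F) (h' : g ∈ PD wt ρ E)
    (e : ∀ x ∈ F, x ∉ E) : g = 1 :=
  hρ (by
    rw [map_one, ← sub_eq_zero]
    exact ((Sup.inter h (Sup.sub h' (Sup.one E.zero_mem))).mono fun x c => e x c.1 c.2).eq_zero)

theorem conj_sub_one (g u : G) : ρ (g * u * g⁻¹) - 1 = ρ g * (ρ u - 1) * ρ g⁻¹ := by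
  rw [mul_sub, sub_mul, mul_one, rho_mul_inv, map_mul, map_mul]

theorem conj_UD (hg : g ∈ PD wt ρ E) (hu : u ∈ UD wt ρ F) (e : ∀ x ∈ E, ∀ y ∈ F, x + y ∈ F) :
    g * u * g⁻¹ ∈ UD wt ρ F := by
  rw [mem_UD, conj_sub_one]
  exact (Sup.mul hg hu e).mul (inv_mem hg : g⁻¹ ∈ PD wt ρ E) fun x a y b => add_comm y x ▸ e y b x a

/-- Commutators. -/
theorem comm_UD {F'' : AddSubsemigroup Q} (hg : g ∈ UD wt ρ F) (hu : u ∈ UD wt ρ F')
    (e : ∀ x ∈ F, ∀ y ∈ F', x + y ∈ F'') (e1 : ∀ x ∈ F, ∀ y ∈ F'', x + y ∈ F'')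
    (e2 : ∀ x ∈ F', ∀ y ∈ F'', x + y ∈ F'') : g * u * g⁻¹ * u⁻¹ ∈ UD wt ρ F'' := by
  have h1 : Sup wt F'' (ρ g * ρ u - ρ u * ρ g) := by
    rw [show ρ g * ρ u - ρ u * ρ g = (ρ g - 1) * (ρ u - 1) - (ρ u - 1) * (ρ g - 1) by noncomm_ring]
    exact (Sup.mul hg hu e).sub (Sup.mul hu hg fun x a y b => add_comm y x ▸ e y b x a)
  have h2 : ∀ {Y : Matrix (Fin n) (Fin n) k} {F₁ : AddSubsemigroup Q} {v : G}, Sup wt F'' Y →
      v ∈ UD wt ρ F₁ → (∀ x ∈ F₁, ∀ y ∈ F'', x + y ∈ F'') → Sup wt F'' (Y * ρ v) := by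
    intro Y F₁ v a b c
    rw [show Y * ρ v = Y * (ρ v - 1) + Y by noncomm_ring]
    exact (Sup.mul a b fun x a y b => add_comm y x ▸ c y b x a).add a
  rw [mem_UD, show ρ (g * u * g⁻¹ * u⁻¹) - 1 = (ρ g * ρ u - ρ u * ρ g) * ρ g⁻¹ * ρ u⁻¹ by
    rw [sub_mul, sub_mul, mul_assoc (ρ u), rho_mul_inv, mul_one, rho_mul_inv, map_mul, map_mul,
      map_mul]]
  exact h2 (h2 h1 (inv_mem hg) e1) (inv_mem hu) e2

end sup

/-- The degrees supported on `J`. -/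
def dIn {r : ℕ} (J : Set (Fin r)) : AddSubmonoid (Fin r → ℤ) where
  carrier := {μ | ∀ i, i ∉ J → μ i = 0}
  add_mem' := fun {a b} c d i e => by rw [Pi.add_apply, c i e, d i e, add_zero]
  zero_mem' := fun _ _ => rfl

section weyl

variable {R : RS} {w w' : R.Aut} {h : Fin R.r → ℝ} {μ : R.Q}

/-- The transposed action on cocharacters. -/
noncomputable def tw (w : R.Aut) (h : Fin R.r → ℝ) : Fin R.r → ℝ := fun j => pr (w (R.α j)) h

theorem pr_tw (w : R.Aut) (μ : R.Q) (h : Fin R.r → ℝ) : pr μ (tw w h) = pr (w μ) h := by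
  rw [RS.map_eq w μ, pr_sum]
  simp only [pr_zsmul]
  rfl

theorem pr_α (j : Fin R.r) (h : Fin R.r → ℝ) : pr (R.α j) h = h j := pr_single j h

theorem tw_one (h : Fin R.r → ℝ) : tw (1 : R.Aut) h = h := funext fun j => pr_α j h

theorem tw_mul (w w' : R.Aut) (h : Fin R.r → ℝ) : tw (w * w') h = tw w' (tw w h) :=
  funext fun j => (pr_tw w _ h).symm

theorem tw_neg (w : R.Aut) (h : Fin R.r → ℝ) : tw w (-h) = -tw w h :=
  funext fun j => pr_neg' _ _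

/-- A strictly dominant weight. -/
theorem exists_dom (hR : R.Ok) : ∃ δ : R.Q, ∀ j, 0 < R.pr δ j := by
  refine ⟨R.A.det • ((fun _ => 1) ᵥ* R.A.adjugate), fun j => ?_⟩
  rw [RS.pr_smul, RS.pr, vecMul_vecMul, adjugate_mul, vecMul_smul, vecMul_one]
  simpa using hR.det

/-- Every cocharacter is conjugate to a dominant one. -/
theorem exists_tw (hR : R.Ok) (J : Set (Fin R.r)) (h : Fin R.r → ℝ) :
    ∃ w ∈ R.WJ J, ∀ j ∈ J, 0 ≤ tw w h j := by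
  obtain ⟨δ, hδ⟩ := exists_dom hR
  have := hR.finite_W
  obtain ⟨w, hw, hm⟩ := Set.exists_max_image (R.WJ J : Set R.Aut) (fun w => pr (w δ) h)
    ((Set.toFinite (R.W : Set R.Aut)).subset (RS.WJ_le J)) ⟨1, one_mem _⟩
  refine ⟨w, hw, fun j hj => ?_⟩
  have h1 := hm _ (mul_mem hw (RS.sE_mem hj))
  rw [RS.mul_app, hR.sE_eq, map_sub, map_smul, pr_sub, pr_zsmul] at h1
  exact nonneg_of_mul_nonneg_right (by unfold tw; linarith) (Int.cast_pos.2 (hδ j))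

/-- The stabiliser of a dominant cocharacter. -/
theorem mem_WJ_of_tw (hR : R.Ok) (hw : w ∈ R.W) (h0 : 0 ≤ h) (e : tw w h = h) :
    w ∈ R.WJ {j | h j = 0} :=
  hR.mem_WJ_of_Inv hw fun γ c => ⟨c.1, c.2.1, (pr_eq_zero_iff c.2.1 h0).1
    (le_antisymm (by rw [← e, pr_tw]; exact pr_nonpos c.2.2 h0) (pr_nonneg c.2.1 h0))⟩

theorem tw_of_mem_WJ (hR : R.Ok) (hw : w ∈ R.WJ {j | h j = 0}) : tw w h = h := funext fun j => by
  have := pr_eq_zero_of (h := h) (hR.sub_In hw (R.α j))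
  rwa [pr_sub, sub_eq_zero, pr_α] at this

theorem WJ_empty : R.WJ ∅ = ⊥ := by rw [RS.WJ, Set.image_empty, Subgroup.closure_empty]

theorem eq_one_of_tw (hR : R.Ok) (hw : w ∈ R.W) (h0 : ∀ j, 0 < h j) (e : tw w h = h) : w = 1 := by
  have := mem_WJ_of_tw hR hw (fun j => (h0 j).le) e
  rwa [show {j | h j = 0} = ∅ from Set.eq_empty_of_forall_notMem fun j => (h0 j).ne', WJ_empty,
    Subgroup.mem_bot] at this

theorem map_lt_zero (hR : R.Ok) (hw : R.Lg Set.univ w) (e : 0 < μ) : w μ < 0 :=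
  lt_of_le_of_ne (hR.Lg_neg hw e.le (RS.In_univ μ)) fun c => e.ne' (w.map_eq_zero_iff.1 c)

theorem map_pos_of_neg (hR : R.Ok) (hw : R.Lg Set.univ w) (e : μ < 0) : 0 < w μ := by
  have := map_lt_zero hR hw (neg_pos.2 e)
  rwa [map_neg, neg_lt_zero] at this

theorem root_pos (hR : R.Ok) {γ : R.Q} (hγ : γ ∈ R.Φ) (e : 0 ≤ γ) : 0 < γ :=
  lt_of_le_of_ne e (hR.sign γ hγ).1.symm

theorem root_neg (hR : R.Ok) {γ : R.Q} (hγ : γ ∈ R.Φ) (e : γ ≤ 0) : γ < 0 :=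
  lt_of_le_of_ne e (hR.sign γ hγ).1

theorem mem_ray_of_sE (hR : R.Ok) {i : Fin R.r} (h1 : 0 < μ) (h2 : R.sE i μ ≤ 0) :
    μ ∈ dRay (R.α i) := by
  have h3 : ∀ j, j ≠ i → μ j = 0 := fun j hj => le_antisymm (by
    have := h2 j
    rw [hR.sE_eq] at this
    simpa [RS.α_ne hj] using this) (h1.le j)
  obtain ⟨-, j, hj⟩ := Pi.lt_def.1 h1
  obtain rfl : j = i := by
    by_contra c
    exact hj.ne' (h3 j c)
  refine ⟨(μ j).toNat, by simpa using hj, funext fun x => ?_⟩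
  by_cases c : x = j
  · subst c
    simp [RS.α_self, show 0 ≤ μ x from hj.le]
  · simp [h3 x c, RS.α_ne c]

end weyl

namespace LD

variable {k G : Type} [Field k] [Group G] {L : LD k G} {g g' u z : G} {w w' : L.R.Aut}
  {h h' : Fin L.R.r → ℝ} {γ : L.R.Q}

variable (L) in
/-- The standard Levi subgroup of type `J`. -/
def LJ (J : Set (Fin L.R.r)) : Subgroup G := PD L.wt L.ρ (dIn J)

variable (L) in
/-- The maximal unipotent subgroup of the standard Levi subgroup. -/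
def UJ (J : Set (Fin L.R.r)) : Subgroup G := L.Up ⊓ L.LJ J

theorem mem_P : g ∈ L.P h ↔ ∀ a b, pr (L.wt a) h < pr (L.wt b) h → L.ρ g a b = 0 :=
  forall₂_congr fun a b => by rw [SetLike.mem_coe, mem_dGe, pr_sub, sub_nonneg, not_le]

theorem mem_U : g ∈ L.U h ↔
    ∀ a b, pr (L.wt a) h ≤ pr (L.wt b) h → L.ρ g a b = (1 : Matrix _ _ k) a b :=
  forall₂_congr fun a b => by
    rw [SetLike.mem_coe, mem_dGt, pr_sub, sub_pos, not_lt, Matrix.sub_apply, sub_eq_zero]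

theorem mem_Z : g ∈ L.Z h ↔ ∀ a b, pr (L.wt a) h ≠ pr (L.wt b) h → L.ρ g a b = 0 :=
  forall₂_congr fun a b => by rw [SetLike.mem_coe, mem_dEq, pr_sub, sub_eq_zero]

theorem mem_Z0 : g ∈ L.Z0 ↔ ∀ a b, L.wt a ≠ L.wt b → L.ρ g a b = 0 :=
  forall₂_congr fun a b => by rw [SetLike.mem_coe, AddSubmonoid.mem_bot, sub_eq_zero]

theorem rep_one : L.Rep g (1 : L.R.Aut) ↔ g ∈ L.Z0 := mem_Z0.symm

theorem Rep.mul (a : L.Rep g w) (b : L.Rep g' w') : L.Rep (g * g') (w * w' : L.R.Aut) := by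
  rw [Rep, map_mul]
  exact Ty.mul (w := w) (w' := w') a b

theorem Rep.inv (a : L.Rep g w) : L.Rep g⁻¹ (w⁻¹ : L.R.Aut) :=
  Ty.inv a (rho_mul_inv g) (RS.inv_app w)

theorem Rep.mul_Z0 (a : L.Rep g w) (b : z ∈ L.Z0) : L.Rep (g * z) w := by
  simpa using a.mul (rep_one.2 b)

theorem Rep.Z0_mul (a : L.Rep g w) (b : z ∈ L.Z0) : L.Rep (z * g) w := by
  simpa using (rep_one.2 b).mul a

theorem Rep.div (a : L.Rep g w) (b : L.Rep g' w) : g * g'⁻¹ ∈ L.Z0 ∧ g⁻¹ * g' ∈ L.Z0 :=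
  ⟨rep_one.1 (by simpa using a.mul b.inv), rep_one.1 (by simpa using a.inv.mul b)⟩

theorem Rep.conj_PD (a : L.Rep g w) {E E' : AddSubmonoid L.R.Q} (hu : u ∈ PD L.wt L.ρ E)
    (e : ∀ x ∈ E, w x ∈ E') : g * u * g⁻¹ ∈ PD L.wt L.ρ E' := by
  rw [mem_PD, map_mul, map_mul]
  exact Ty.conj (f := w.toLinearMap.toAddMonoidHom) a a.inv (RS.app_inv w) hu e

theorem Rep.conj_UD (a : L.Rep g w) {F F' : AddSubsemigroup L.R.Q} (hu : u ∈ UD L.wt L.ρ F)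
    (e : ∀ x ∈ F, w x ∈ F') : g * u * g⁻¹ ∈ UD L.wt L.ρ F' := by
  rw [mem_UD, conj_sub_one]
  exact Ty.conj (f := w.toLinearMap.toAddMonoidHom) a a.inv (RS.app_inv w) hu e

theorem Rep.conj_X (a : L.Rep g w) (hu : u ∈ L.X γ) : g * u * g⁻¹ ∈ L.X (w γ) :=
  a.conj_UD hu (by
    rintro _ ⟨c, hc, rfl⟩
    exact ⟨c, hc, map_nsmul w c γ⟩)

theorem Rep.conj_Z0 (a : L.Rep g w) (hu : u ∈ L.Z0) : g * u * g⁻¹ ∈ L.Z0 :=
  (a.mul_Z0 hu).div a |>.1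

theorem Rep.conj_P (a : L.Rep g w) (hu : u ∈ L.P (tw w h)) : g * u * g⁻¹ ∈ L.P h :=
  a.conj_PD hu fun x c => by rwa [mem_dGe, ← pr_tw]

theorem Rep.conj_Z (a : L.Rep g w) (hu : u ∈ L.Z (tw w h)) : g * u * g⁻¹ ∈ L.Z h :=
  a.conj_PD hu fun x c => by rwa [mem_dEq, ← pr_tw]

theorem Rep.conj_U (a : L.Rep g w) (hu : u ∈ L.U (tw w h)) : g * u * g⁻¹ ∈ L.U h :=
  a.conj_UD hu fun x c => by rwa [mem_dGt, ← pr_tw]

theorem tw_inv_tw (w : L.R.Aut) (h : Fin L.R.r → ℝ) : tw w⁻¹ (tw w h) = h := by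
  rw [← tw_mul, mul_inv_cancel, tw_one]

theorem Rep.conj_P' (a : L.Rep g w) (hu : u ∈ L.P h) : g⁻¹ * u * g ∈ L.P (tw w h) := by
  simpa using a.inv.conj_P (by rwa [tw_inv_tw])

theorem Rep.conj_Z' (a : L.Rep g w) (hu : u ∈ L.Z h) : g⁻¹ * u * g ∈ L.Z (tw w h) := by
  simpa using a.inv.conj_Z (by rwa [tw_inv_tw])

theorem Rep.conj_U' (a : L.Rep g w) (hu : u ∈ L.U h) : g⁻¹ * u * g ∈ L.U (tw w h) := by
  simpa using a.inv.conj_U (by rwa [tw_inv_tw])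

theorem Rep.exists_perm (a : L.Rep g w) :
    ∃ σ : Equiv.Perm (Fin L.n), ∀ b, L.wt (σ b) = w (L.wt b) :=
  let ⟨σ, e⟩ := P092GP.exists_perm (rho_det_ne (ρ := L.ρ) g)
  ⟨σ, fun b => ty_iff.1 a _ _ (e b)⟩

theorem Rep.eq_wt (a : L.Rep g w) (b : L.Rep g w') (c : Fin L.n) : w (L.wt c) = w' (L.wt c) :=
  let ⟨σ, e⟩ := P092GP.exists_perm (rho_det_ne (ρ := L.ρ) g)
  (ty_iff.1 a _ _ (e c)).symm.trans (ty_iff.1 b _ _ (e c))

/-- The sum trick. -/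
theorem Rep.pr_eq (a : L.Rep g w) (e : ∀ b, pr (L.wt b) h ≤ pr (w (L.wt b)) h) (b : Fin L.n) :
    pr (w (L.wt b)) h = pr (L.wt b) h := by
  obtain ⟨σ, hσ⟩ := a.exists_perm
  refine ((Finset.sum_eq_sum_iff_of_le fun b _ => e b).1 ?_ b (Finset.mem_univ _)).symm
  simp only [← hσ]
  exact (Equiv.sum_comp σ fun b => pr (L.wt b) h).symm

theorem Rep.mem_Z (a : L.Rep g w) (e : g ∈ L.P h) : g ∈ L.Z h := by
  obtain ⟨σ, hσ⟩ := P092GP.exists_perm (rho_det_ne (ρ := L.ρ) g)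
  refine LD.mem_Z.2 fun x y c => a x y fun d => c ?_
  rw [d]
  exact a.pr_eq (fun b => by
    rw [← ty_iff.1 a _ _ (hσ b)]
    exact not_lt.1 fun c => hσ b (mem_P.1 e _ _ c)) y

theorem Rep.mem_Z_of (a : L.Rep g w) (e : tw w h = h) : g ∈ L.Z h :=
  LD.mem_Z.2 fun x y c => a x y fun d => c (by rw [d, ← pr_tw, e])

/-- A representative in `U (-h) P h` lies in `P h`. -/
theorem Rep.mem_P (a : L.Rep (u * g) w) (hu : u ∈ L.U (-h)) (hg : g ∈ L.P h) : u * g ∈ L.P h := by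
  classical
  refine LD.mem_P.2 fun x b c => a x b fun d => c.not_ge ?_
  obtain ⟨σ, hσ⟩ := P092GP.exists_perm (rho_det_ne (ρ := L.ρ) g)
  obtain ⟨y, hy, hm⟩ := Finset.exists_max_image (Finset.univ.filter fun y => L.ρ g y b ≠ 0)
    (fun y => pr (L.wt y) h) ⟨σ b, by simpa using hσ b⟩
  simp only [Finset.mem_filter, Finset.mem_univ, true_and] at hy hm
  have h1 : L.ρ (u * g) y b = L.ρ g y b := by
    conv_rhs => rw [← one_mul (L.ρ g)]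
    rw [map_mul, Matrix.mul_apply, Matrix.mul_apply]
    refine Finset.sum_congr rfl fun z _ => ?_
    by_cases e : L.ρ g z b = 0
    · rw [e, mul_zero, mul_zero]
    · rw [mem_U.1 hu y z (by rw [pr_neg', pr_neg']; exact neg_le_neg (hm z e))]
  rw [d, ← ty_iff.1 a y b (h1 ▸ hy)]
  exact not_lt.1 fun c => hy (LD.mem_P.1 hg _ _ c)

theorem U_le_P (h : Fin L.R.r → ℝ) : L.U h ≤ L.P h := UD_le_PD fun _ c => (mem_dGt.1 c).le

theorem Z_le_P (h : Fin L.R.r → ℝ) : L.Z h ≤ L.P h := PD_mono fun _ c => ge_of_eq c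

theorem Z_neg (h : Fin L.R.r → ℝ) : L.Z (-h) = L.Z h := by
  ext g
  simp only [mem_Z, pr_neg', ne_eq, neg_inj]

theorem Z_eq (h : Fin L.R.r → ℝ) : L.Z h = L.P h ⊓ L.P (-h) := by
  rw [P, P, ← PD_inf, Z]
  congr 1
  ext μ
  rw [AddSubmonoid.mem_inf, mem_dGe, mem_dGe, mem_dEq, pr_neg', neg_nonneg, le_antisymm_iff,
    and_comm]

theorem Z0_le_PD (E : AddSubmonoid L.R.Q) : L.Z0 ≤ PD L.wt L.ρ E := PD_mono bot_le

theorem Z0_le_Z (h : Fin L.R.r → ℝ) : L.Z0 ≤ L.Z h := Z0_le_PD _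

theorem Z0_le_P (h : Fin L.R.r → ℝ) : L.Z0 ≤ L.P h := Z0_le_PD _

theorem Z0_le_B : L.Z0 ≤ L.B := Z0_le_PD _

theorem Z0_le_Bm : L.Z0 ≤ L.Bm := Z0_le_PD _

theorem Z0_le_LJ (J : Set (Fin L.R.r)) : L.Z0 ≤ L.LJ J := Z0_le_PD _

theorem Up_le_B : L.Up ≤ L.B := UD_le_PD fun _ c => (mem_dPos.1 c).le

theorem Um_le_Bm : L.Um ≤ L.Bm := UD_le_PD fun _ c => (mem_dNeg.1 c).le

theorem B_inf_Bm : L.B ⊓ L.Bm = L.Z0 := by
  rw [B, Bm, ← PD_inf, Z0]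
  congr 1
  ext μ
  rw [AddSubmonoid.mem_inf, mem_dNn, mem_dNp, AddSubmonoid.mem_bot, le_antisymm_iff, and_comm]

theorem B_le_P (e : 0 ≤ h) : L.B ≤ L.P h := PD_mono fun _ c => pr_nonneg c e

theorem Bm_le_P (e : 0 ≤ h) : L.Bm ≤ L.P (-h) := PD_mono fun _ c => by
  rw [mem_dGe, pr_neg', neg_nonneg]
  exact pr_nonpos c e

theorem Up_le_U (e : ∀ j, 0 < h j) : L.Up ≤ L.U h := UD_mono fun _ c => pr_pos c e

theorem Um_le_U (e : ∀ j, 0 < h j) : L.Um ≤ L.U (-h) := UD_mono fun _ c => by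
  rw [mem_dGt, pr_neg', ← pr_neg]
  exact pr_pos (neg_pos.2 c) e

theorem LJ_le_Z (h : Fin L.R.r → ℝ) : L.LJ {j | h j = 0} ≤ L.Z h :=
  PD_mono fun _ c => pr_eq_zero_of c

theorem LJ_mono {J J' : Set (Fin L.R.r)} (e : J ⊆ J') : L.LJ J ≤ L.LJ J' :=
  PD_mono fun _ c i d => c i fun f => d (e f)

theorem LJ_univ : L.LJ Set.univ = ⊤ :=
  eq_top_iff.2 fun _ _ _ _ c => (c fun _ d => (d trivial).elim).elim

theorem UJ_univ : L.UJ Set.univ = L.Up := by rw [UJ, LJ_univ, inf_top_eq]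

theorem LJ_empty : L.LJ ∅ = L.Z0 := by
  rw [LJ, Z0]
  congr 1
  ext μ
  exact ⟨fun c => funext fun i => c i (Set.notMem_empty i), fun c i _ => congrFun c i⟩

theorem conj_U (hg : g ∈ L.P h) (hu : u ∈ L.U h) : g * u * g⁻¹ ∈ L.U h :=
  conj_UD hg hu fun x a y b => (add_pos_of_nonneg_of_pos a b).trans_eq (pr_add x y h).symm

theorem conj_Up (hg : g ∈ L.B) (hu : u ∈ L.Up) : g * u * g⁻¹ ∈ L.Up :=
  conj_UD hg hu fun _ a _ b => add_pos_of_nonneg_of_pos (α := L.R.Q) a b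

theorem conj_Um (hg : g ∈ L.Bm) (hu : u ∈ L.Um) : g * u * g⁻¹ ∈ L.Um :=
  conj_UD hg hu fun _ a _ b => add_neg_of_nonpos_of_neg (α := L.R.Q) a b

theorem Z0_conj_UD {F : AddSubsemigroup L.R.Q} (hg : g ∈ L.Z0) (hu : u ∈ UD L.wt L.ρ F) :
    g * u * g⁻¹ ∈ UD L.wt L.ρ F :=
  conj_UD hg hu fun x a y b => by rwa [AddSubmonoid.mem_bot.1 a, zero_add]

theorem X_le_Up (e : 0 < γ) : L.X γ ≤ L.Up := UD_mono (by
  rintro _ ⟨c, hc, rfl⟩
  exact nsmul_pos e hc.ne')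

theorem X_le_Um (e : γ < 0) : L.X γ ≤ L.Um := UD_mono (by
  rintro _ ⟨c, hc, rfl⟩
  exact nsmul_neg e hc.ne')

theorem X_le_U (e : 0 < pr γ h) : L.X γ ≤ L.U h := UD_mono (by
  rintro _ ⟨c, hc, rfl⟩
  rw [mem_dGt, pr_nsmul]
  exact mul_pos (Nat.cast_pos.2 hc) e)

theorem X_le_P (e : 0 ≤ pr γ h) : L.X γ ≤ L.P h := UD_le_PD (by
  rintro _ ⟨c, hc, rfl⟩
  rw [mem_dGe, pr_nsmul]
  exact mul_nonneg (Nat.cast_nonneg c) e)

theorem X_le_Z (e : pr γ h = 0) : L.X γ ≤ L.Z h := UD_le_PD (by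
  rintro _ ⟨c, hc, rfl⟩
  rw [mem_dEq, pr_nsmul, e, mul_zero])

theorem X_le_LJ {J : Set (Fin L.R.r)} (e : L.R.In J γ) : L.X γ ≤ L.LJ J := UD_le_PD (by
  rintro _ ⟨c, hc, rfl⟩
  exact e.nsmul c)

theorem Up_le_Gp : L.Up ≤ L.Gp := le_sup_left

theorem Um_le_Gp : L.Um ≤ L.Gp := le_sup_right

theorem τ_mem_S (y : L.R.Q) (t : kˣ) : L.τ y t ∈ L.S := Subgroup.subset_closure ⟨y, t, rfl⟩

namespace Ok

variable (H : L.Ok)
include H

theorem eq_one_of_U (a : g ∈ L.U h) (b : g ∈ L.P (-h)) : g = 1 :=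
  eq_one_of_UD H.inj a b fun x c d => by
    rw [mem_dGe, pr_neg', neg_nonneg] at d
    exact d.not_gt c

theorem eq_one_of_U' (a : g ∈ L.U (-h)) (b : g ∈ L.P h) : g = 1 :=
  H.eq_one_of_U a (by rwa [neg_neg])

theorem eq_one_of_Up (a : g ∈ L.Up) (b : g ∈ L.Bm) : g = 1 :=
  eq_one_of_UD H.inj a b fun _ c d => (lt_of_lt_of_le (α := L.R.Q) c d).false

theorem eq_one_of_Um (a : g ∈ L.Um) (b : g ∈ L.B) : g = 1 :=
  eq_one_of_UD H.inj a b fun _ c d => (lt_of_lt_of_le (α := L.R.Q) c d).false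

/-- Uniqueness of the decomposition in the big cell of `h`. -/
theorem ldu_uniq {v v' u' z' : G} (a : v ∈ L.U (-h)) (a' : v' ∈ L.U (-h)) (b : z ∈ L.Z h)
    (b' : z' ∈ L.Z h) (c : u ∈ L.U h) (c' : u' ∈ L.U h) (e : v * z * u = v' * z' * u') :
    v = v' ∧ z = z' ∧ u = u' := by
  have h1 : v'⁻¹ * v = 1 := H.eq_one_of_U' (mul_mem (inv_mem a') a) (by
    rw [show v'⁻¹ * v = z' * u' * (z * u)⁻¹ by
      rw [eq_mul_inv_iff_mul_eq, mul_assoc, ← mul_assoc v, e]; group]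
    exact mul_mem (mul_mem (Z_le_P h b') (U_le_P h c'))
      (inv_mem (mul_mem (Z_le_P h b) (U_le_P h c))))
  obtain rfl : v' = v := inv_mul_eq_one.1 h1
  rw [mul_assoc, mul_assoc, mul_right_inj] at e
  have h2 : u' * u⁻¹ = 1 := H.eq_one_of_U (mul_mem c' (inv_mem c)) (by
    rw [show u' * u⁻¹ = z'⁻¹ * z by
      rw [mul_inv_eq_iff_eq_mul, mul_assoc, e]; group]
    exact Z_le_P _ (Z_neg h ▸ mul_mem (inv_mem b') b))
  obtain rfl : u' = u := mul_inv_eq_one.1 h2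
  exact ⟨rfl, mul_right_cancel e, rfl⟩

theorem τ_add (y y' : L.R.Q) (t : kˣ) : L.τ (y + y') t = L.τ y t * L.τ y' t := H.inj (by
  simp only [map_mul, H.tor, diagonal_mul_diagonal, dotProduct_add, zpow_add, Units.val_mul])

theorem τ_mul (y : L.R.Q) (t t' : kˣ) : L.τ y (t * t') = L.τ y t * L.τ y t' := H.inj (by
  simp only [map_mul, H.tor, diagonal_mul_diagonal, mul_zpow, Units.val_mul])

theorem τ_one (y : L.R.Q) : L.τ y 1 = 1 := H.inj (by simp [H.tor])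

theorem τ_zero (t : kˣ) : L.τ 0 t = 1 := H.inj (by simp [H.tor])

theorem τ_neg (y : L.R.Q) (t : kˣ) : L.τ (-y) t = (L.τ y t)⁻¹ :=
  eq_inv_of_mul_eq_one_left (by rw [← H.τ_add, neg_add_cancel, H.τ_zero])

theorem τ_inv (y : L.R.Q) (t : kˣ) : L.τ y t⁻¹ = (L.τ y t)⁻¹ :=
  eq_inv_of_mul_eq_one_left (by rw [← H.τ_mul, inv_mul_cancel, H.τ_one])

theorem τ_zsmul (y : L.R.Q) (t : kˣ) (c : ℤ) : L.τ (c • y) t = L.τ y t ^ c :=
  map_zsmul (AddMonoidHom.mk' (fun y => Additive.ofMul (L.τ y t)) fun a b => H.τ_add a b t) c y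

theorem τ_zpow (y : L.R.Q) (t : kˣ) (c : ℤ) : L.τ y (t ^ c) = L.τ y t ^ c :=
  map_zpow (MonoidHom.mk' (L.τ y) (H.τ_mul y)) t c

theorem τ_mem_Z0 (y : L.R.Q) (t : kˣ) : L.τ y t ∈ L.Z0 := by
  rw [Z0, mem_PD, H.tor]
  exact Sup.diagonal (AddSubmonoid.zero_mem _) _

theorem S_le_Z0 : L.S ≤ L.Z0 := (Subgroup.closure_le _).2 (by
  rintro _ ⟨y, t, rfl⟩
  exact H.τ_mem_Z0 y t)

theorem τ_conj (y : L.R.Q) (t : kˣ) (g : G) (a b : Fin L.n) :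
    L.ρ (L.τ y t * g * (L.τ y t)⁻¹) a b = ((t ^ ((L.wt a - L.wt b) ⬝ᵥ y) : kˣ) : k) * L.ρ g a b := by
  rw [← H.τ_neg, map_mul, map_mul, H.tor, H.tor, mul_diagonal, diagonal_mul, sub_dotProduct,
    dotProduct_neg, sub_eq_add_neg, zpow_add, Units.val_mul]
  ring

theorem τ_comm {y : L.R.Q} (t : kˣ) (a : g ∈ L.Z fun j => (y j : ℝ)) :
    L.τ y t * g = g * L.τ y t :=
  mul_inv_eq_iff_eq_mul.1 (H.inj (Matrix.ext fun x z => by
    rw [H.τ_conj]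
    by_cases c : L.ρ g x z = 0
    · rw [c, mul_zero]
    · have := sup_iff.1 a x z c
      rw [SetLike.mem_coe, mem_dEq, pr_cast, Int.cast_eq_zero] at this
      rw [this, zpow_zero, Units.val_one, one_mul]))

theorem τ_comm0 (y : L.R.Q) (t : kˣ) (a : g ∈ L.Z0) : L.τ y t * g = g * L.τ y t :=
  H.τ_comm t (Z0_le_Z _ a)

theorem S_comm {s : G} (hs : s ∈ L.S) (a : g ∈ L.Z0) : s * g = g * s :=
  ((Subgroup.closure_le (Subgroup.centralizer {g})).2 (by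
    rintro _ ⟨y, t, rfl⟩ _ rfl
    exact (H.τ_comm0 y t a).symm) hs g rfl).symm

/-- Conjugation of the torus by a representative. -/
theorem rep_τ (a : L.Rep g w) (y : L.R.Q) (t : kˣ) :
    g⁻¹ * L.τ y t * g = L.τ (fun j => w (L.R.α j) ⬝ᵥ y) t := by
  rw [mul_assoc, inv_mul_eq_iff_eq_mul]
  refine H.inj (Matrix.ext fun x z => ?_)
  rw [map_mul, map_mul, H.tor, H.tor, diagonal_mul, mul_diagonal, mul_comm]
  by_cases c : L.ρ g x z = 0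
  · rw [c, zero_mul, zero_mul]
  · rw [ty_iff.1 a x z c, RS.map_eq w, sum_dotProduct]
    simp only [smul_dotProduct, smul_eq_mul]
    rfl

end Ok

end LD

end Vale.Agent.P092GP
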