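import Vale.Agent.P092GP.Bru
import Vale.Agent.P092AL.LDU

/-!
P092, group package: the factors of the big cell, the minimal parabolic subgroups of rank one, the
parametrisation of the torus.
-/

set_option autoImplicit false
set_option linter.all false

namespace Vale.Agent.P092GP

open Matrix Vale.Agent.P183CH

namespace LD

variable {k G : Type} [Field k] [Group G] {L : LD k G} {g g' n u v z b : G} {w : L.R.Aut}
  {h : Fin L.R.r → ℝ} {i j : Fin L.R.r}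

variable (L) in
/-- The height of the weights. -/
def yy (a : Fin L.n) : ℤ := ∑ i, L.wt a i

variable (L) in
/-- The cocharacter of the minimal parabolic subgroup of type `i`. -/
def hh (i : Fin L.R.r) : Fin L.R.r → ℝ := fun j => if j = i then 0 else 1

variable (L) in
/-- The first factor in the big cell. -/
noncomputable def lo (g : G) : G := Classical.epsilon fun v => v ∈ L.Um ∧ v⁻¹ * g ∈ L.B

variable (L) in
/-- The last factor in the big cell. -/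
noncomputable def up (g : G) : G := Classical.epsilon fun u => u ∈ L.Up ∧ g * u⁻¹ ∈ L.Bm

variable (L) in
/-- The parametrisation of the torus. -/
def σ (t : Fin L.R.r → kˣ) : G := (List.ofFn fun j => L.τ (L.R.α j) (t j)).prod

theorem hh_nonneg (i : Fin L.R.r) : 0 ≤ L.hh i := fun j => by
  unfold hh
  split_ifs <;> simp

theorem hh_zero (i : Fin L.R.r) : {j | L.hh i j = 0} = {i} := by
  ext j
  simp [hh]

theorem UJ_single (i : Fin L.R.r) : L.UJ {i} ≤ L.X (L.R.α i) := fun u a =>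
  UD_mono (F := _ ⊓ _) (fun μ c => by
    obtain ⟨h1, j, hj⟩ := Pi.lt_def.1 (mem_dPos.1 c.1)
    obtain rfl : j = i := by
      by_contra e
      exact hj.ne' (c.2 j e)
    refine ⟨(μ j).toNat, by simpa using hj, funext fun x => ?_⟩
    by_cases e : x = j
    · subst e
      simp [RS.α_self, show 0 ≤ μ x from hj.le]
    · simp [c.2 x e, RS.α_ne e]) (mem_UJ.1 a)

theorem yy_sub (a c : Fin L.n) : L.yy a - L.yy c = ∑ i, (L.wt a - L.wt c) i := by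
  simp [yy]

theorem un_Up (a : u ∈ L.Up) : P092AL.Un L.yy (L.ρ u) := fun x y e => by
  have := ht_pos (sup_iff.1 a x y e)
  rw [← yy_sub] at this
  omega

theorem un_Um (a : u ∈ L.Um) : P092AL.Un (-L.yy) (L.ρ u) := fun x y e => by
  have := ht_pos (neg_pos.2 (mem_dNeg.1 (sup_iff.1 a x y e)))
  rw [neg_sub, ← yy_sub] at this
  simp only [Pi.neg_apply]
  omega

theorem pp_B (a : b ∈ L.B) : P092AL.Pp L.yy (L.ρ b) := fun x y e => by
  have : 0 ≤ ∑ i, (L.wt x - L.wt y) i := Finset.sum_nonneg fun i _ => sup_iff.1 a x y e i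
  rw [← yy_sub] at this
  omega

theorem pp_Bm (a : b ∈ L.Bm) : P092AL.Pp (-L.yy) (L.ρ b) := fun x y e => by
  have : ∑ i, (L.wt x - L.wt y) i ≤ 0 := Finset.sum_nonpos fun i _ => sup_iff.1 a x y e i
  rw [← yy_sub] at this
  simp only [Pi.neg_apply]
  omega

theorem mem_B_iff : g ∈ L.B ↔ ∀ j, g ∈ L.P (Pi.single j 1) :=
  ⟨fun a j => B_le_P (Pi.single_nonneg.2 zero_le_one) a, fun a => sup_iff.2 fun x y e j => by
    have := sup_iff.1 (a j) x y e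
    rwa [SetLike.mem_coe, mem_dGe, pr_single', Int.cast_nonneg_iff] at this⟩

theorem mem_Bm_iff : g ∈ L.Bm ↔ ∀ j, g ∈ L.P (-Pi.single j 1) :=
  ⟨fun a j => Bm_le_P (Pi.single_nonneg.2 zero_le_one) a, fun a => sup_iff.2 fun x y e j => by
    have := sup_iff.1 (a j) x y e
    rwa [SetLike.mem_coe, mem_dGe, pr_neg', pr_single', neg_nonneg, Int.cast_nonpos] at this⟩

/-- The diagonal blocks of an element of `B`. -/
theorem blk_B (a : z ∈ L.Z0) (c : u ∈ L.Up) :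
    L.ρ z = of fun x y => if L.wt x = L.wt y then L.ρ (z * u) x y else 0 := by
  ext x y
  rw [of_apply]
  split_ifs with e
  · conv_lhs => rw [← mul_one (L.ρ z)]
    rw [map_mul, Matrix.mul_apply, Matrix.mul_apply]
    refine Finset.sum_congr rfl fun t _ => ?_
    by_cases d : L.wt x = L.wt t
    · rw [← sub_eq_zero.1 (c t y (by rw [← d, e, sub_self]; exact lt_irrefl (0 : L.R.Q)))]
    · rw [mem_Z0.1 a x t d, zero_mul, zero_mul]
  · exact mem_Z0.1 a x y e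

namespace Ok

variable (H : L.Ok)
include H

theorem mem_Ω : g ∈ L.Ω ↔ ∃ v ∈ L.Um, ∃ b ∈ L.B, g = v * b :=
  ⟨fun ⟨v, a, z, c, u, d, e⟩ => ⟨v, a, _, mul_mem (Z0_le_B c) (Up_le_B d), e.trans (mul_assoc _ _ _)⟩,
    fun ⟨v, a, _, c, e⟩ => let ⟨z, d, u, f, e'⟩ := H.mem_B.1 c
      ⟨v, a, z, d, u, f, by rw [e, e', mul_assoc]⟩⟩

theorem mem_Ω' : g ∈ L.Ω ↔ ∃ b ∈ L.Bm, ∃ u ∈ L.Up, g = b * u :=
  ⟨fun ⟨v, a, z, c, u, d, e⟩ => ⟨_, mul_mem (Um_le_Bm a) (Z0_le_Bm c), u, d, e⟩,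
    fun ⟨_, c, u, a, e⟩ => let ⟨v, d, z, f, e'⟩ := H.mem_Bm.1 c
      ⟨v, d, z, f, u, a, by rw [e, e']⟩⟩

theorem B_sub_Ω (a : b ∈ L.B) : b ∈ L.Ω := H.mem_Ω.2 ⟨1, one_mem _, b, a, (one_mul b).symm⟩

theorem Ω_mul_B (a : g ∈ L.Ω) (c : b ∈ L.B) : g * b ∈ L.Ω :=
  let ⟨v, d, _, e, f⟩ := H.mem_Ω.1 a
  H.mem_Ω.2 ⟨v, d, _, mul_mem e c, by rw [f, mul_assoc]⟩

theorem Bm_mul_Ω (c : b ∈ L.Bm) (a : g ∈ L.Ω) : b * g ∈ L.Ω :=
  let ⟨_, d, u, e, f⟩ := H.mem_Ω'.1 a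
  H.mem_Ω'.2 ⟨_, mul_mem c d, u, e, by rw [f, mul_assoc]⟩

theorem lo_eq (a : v ∈ L.Um) (c : b ∈ L.B) : L.lo (v * b) = v := by
  obtain ⟨d, e⟩ : L.lo (v * b) ∈ L.Um ∧ (L.lo (v * b))⁻¹ * (v * b) ∈ L.B :=
    Classical.epsilon_spec (p := fun x => x ∈ L.Um ∧ x⁻¹ * (v * b) ∈ L.B) ⟨v, a, by simpa using c⟩
  rw [← mul_assoc, Subgroup.mul_mem_cancel_right _ c] at e
  exact inv_mul_eq_one.1 (H.eq_one_of_Um (mul_mem (inv_mem d) a) e)

theorem up_eq (c : b ∈ L.Bm) (a : u ∈ L.Up) : L.up (b * u) = u := by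
  obtain ⟨d, e⟩ : L.up (b * u) ∈ L.Up ∧ b * u * (L.up (b * u))⁻¹ ∈ L.Bm :=
    Classical.epsilon_spec (p := fun x => x ∈ L.Up ∧ b * u * x⁻¹ ∈ L.Bm) ⟨u, a, by simpa using c⟩
  rw [mul_assoc, Subgroup.mul_mem_cancel_left _ c] at e
  exact (mul_inv_eq_one.1 (H.eq_one_of_Up (mul_mem a (inv_mem d)) e)).symm

theorem cell_spec (a : g ∈ L.Ω) :
    L.lo g ∈ L.Um ∧ (L.lo g)⁻¹ * g * (L.up g)⁻¹ ∈ L.Z0 ∧ L.up g ∈ L.Up := by
  obtain ⟨v, c, z, d, u, e, rfl⟩ := a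
  rw [H.up_eq (mul_mem (Um_le_Bm c) (Z0_le_Bm d)) e, mul_assoc v,
    H.lo_eq c (mul_mem (Z0_le_B d) (Up_le_B e))]
  exact ⟨c, by simpa using d, e⟩

theorem unit_det (g : G) : IsUnit (L.ρ g).det := H.det g ▸ isUnit_one

theorem rho_lo (a : g ∈ L.Ω) : L.ρ (L.lo g) = P092AL.lo L.yy (L.ρ g) := by
  obtain ⟨v, c, b, d, rfl⟩ := H.mem_Ω.1 a
  rw [H.lo_eq c d, map_mul, P092AL.lo_eq (un_Um c) (pp_B d) (H.unit_det b)]

theorem rho_up (a : g ∈ L.Ω) : L.ρ (L.up g) = P092AL.up L.yy (L.ρ g) := by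
  obtain ⟨b, c, u, d, rfl⟩ := H.mem_Ω'.1 a
  rw [H.up_eq c d, map_mul, P092AL.up_eq (pp_Bm c) (un_Up d) (H.unit_det b)]

/-- The big cell is the non-vanishing locus of the principal minors. -/
theorem mem_Ω_ff : g ∈ L.Ω ↔ P092AL.ff L.yy (L.ρ g) ≠ 0 := by
  refine ⟨fun a => ?_, fun a => ?_⟩
  · obtain ⟨v, c, b, d, rfl⟩ := H.mem_Ω.1 a
    rw [map_mul, P092AL.ff_un_left (un_Um c)]
    exact ((pp_B d).ff_unit (H.unit_det b)).ne_zero
  obtain ⟨v, c, n, w, d, e, u, f, rfl⟩ := H.birkhoff g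
  rw [map_mul, map_mul, P092AL.ff_un_right (un_Up f), P092AL.ff_un_left (un_Um c)] at a
  have h1 : ∀ x : L.R.Q, pr x 1 = ((∑ i, x i : ℤ) : ℝ) := fun x => by simp [pr]
  suffices w = 1 from ⟨v, c, n, rep_one.1 (this ▸ e), u, f, rfl⟩
  refine eq_one_of_tw H.root d (h := 1) (fun _ => one_pos) (H.coch_ext fun y => ?_)
  rw [pr_tw]
  refine e.pr_eq (fun y => ?_) y
  obtain ⟨s, hs⟩ := exists_perm (ne_zero_of_dvd_ne_zero a (P092AL.mn_dvd _ (L.yy y - 1) _))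
  have h2 := hs y
  rw [P092AL.tr, Matrix.add_apply, P092AL.mul_pj_apply, if_pos (sub_one_lt _),
    P092AL.pj_mul_apply, P092AL.pj, ← diagonal_one, diagonal_sub] at h2
  have h3 : diagonal (fun x => (1 : k) - if L.yy y - 1 < L.yy x then 1 else 0) (s y) y = 0 := by
    rw [diagonal_apply]
    split_ifs with h4 h5
    · exact sub_self _
    · exact (h5 (by rw [h4]; exact sub_one_lt _)).elim
    · rfl
  rw [h3, add_zero] at h2
  split_ifs at h2 with h4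
  · rw [← ty_iff.1 e _ _ h2, h1, h1, Int.cast_le]
    exact Int.le_of_sub_one_lt h4
  · exact (h2 rfl).elim

theorem WJ_single (a : w ∈ L.R.WJ {i}) : w = 1 ∨ w = L.R.sE i := by
  obtain ⟨l, hl, rfl⟩ := H.root.exists_wd a
  clear a
  induction l with
  | nil => exact Or.inl rfl
  | cons j l ih =>
    obtain rfl : j = i := hl j List.mem_cons_self
    rw [RS.wd_cons]
    rcases ih fun x e => hl x (List.mem_cons_of_mem _ e) with e | e
    · exact Or.inr (by rw [e, mul_one])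
    · exact Or.inl (by rw [e, H.root.sE_mul_self])

theorem nn_mem_Z (i : Fin L.R.r) : L.nn i ∈ L.Z (L.hh i) :=
  LJ_le_Z _ (hh_zero i ▸ GJ_le_LJ _ (H.nn_mem rfl))

theorem rep_nn_inv (i : Fin L.R.r) : L.Rep (L.nn i)⁻¹ (L.R.sE i) :=
  H.root.sE_inv i ▸ (H.rep_nn i).inv

theorem sE_conj (a : L.Rep n (L.R.sE i)) (c : u ∈ L.X (L.R.α i)) : n * u * n⁻¹ ∈ L.X (-L.R.α i) :=
  H.root.sE_α i ▸ a.conj_X c

theorem sE_conj' (a : L.Rep n (L.R.sE i)) (c : u ∈ L.X (-L.R.α i)) :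
    n * u * n⁻¹ ∈ L.X (L.R.α i) := by
  simpa only [map_neg, H.root.sE_α, neg_neg] using a.conj_X c

theorem Xα_le_Up (i : Fin L.R.r) : L.X (L.R.α i) ≤ L.Up := X_le_Up (H.α_pos i)

theorem Xα_le_Um (i : Fin L.R.r) : L.X (-L.R.α i) ≤ L.Um := X_le_Um (neg_lt_zero.2 (H.α_pos i))

/-- The two cells of a minimal parabolic subgroup of rank one. -/
theorem P_hh (a : g ∈ L.P (L.hh i)) :
    g ∈ L.B ∨ ∃ x ∈ L.X (L.R.α i), ∃ b ∈ L.B, g = x * L.nn i * b := by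
  obtain ⟨z, c, u, d, rfl⟩ := H.P_decomp' a
  obtain ⟨x, hx, n, ⟨w, e, f⟩, y, hy, rfl⟩ := H.Z_bruhat (hh_nonneg i) c
  rw [hh_zero] at hx e
  have d' := mul_mem (Up_le_B hy.1) (Up_le_B (H.U_le_Up (hh_nonneg i) d))
  rcases H.WJ_single e with rfl | rfl
  · exact Or.inl (mul_assoc (x * n) y u ▸ mul_mem (mul_mem (Up_le_B hx.1) (Z0_le_B (rep_one.1 f))) d')
  · exact Or.inr ⟨x, UJ_single i hx, _, mul_mem (Z0_le_B ((H.rep_nn i).div f).2) d', by group⟩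

theorem X_nn (a : u ∈ L.X (L.R.α i)) (c : u ≠ 1) :
    ∃ v ∈ L.X (-L.R.α i), ∃ b ∈ L.B, u * L.nn i = v * b := by
  obtain ⟨v, d, v', e, f⟩ := H.weyl' a c
  refine ⟨_, inv_mem d, _, mul_mem (Up_le_B (H.Xα_le_Up i (H.sE_conj' f (inv_mem e))))
    (Z0_le_B (f.div (H.rep_nn_inv i)).1), ?_⟩
  group

/-- Bruhat decomposition for the opposite group. -/
theorem bruhat_neg (g : G) :
    ∃ v ∈ L.Um, ∃ n, ∃ w ∈ L.R.W, L.Rep n w ∧ ∃ v' ∈ L.Um, g = v * n * v' := by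
  obtain ⟨w0, a0, n0, -, b0⟩ := H.exists_n0
  obtain ⟨u, a, n, w, c, d, u', e, f⟩ := H.bruhat0 (n0⁻¹ * g * n0)
  refine ⟨_, H.lg_Up b0 a0 a, _, _, mul_mem (mul_mem a0.1 c) (inv_mem a0.1), (b0.mul d).mul b0.inv,
    _, H.lg_Up b0 a0 e, ?_⟩
  rw [show g = n0 * (n0⁻¹ * g * n0) * n0⁻¹ by group, f]
  group

theorem rho_σ (t : Fin L.R.r → kˣ) :
    L.ρ (L.σ t) = diagonal fun a => ((∏ j, t j ^ L.wt a j : kˣ) : k) := by
  have : ∀ (m : ℕ) (f : Fin m → G) (d : Fin m → Fin L.n → kˣ),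
      (∀ j, L.ρ (f j) = diagonal fun a => (d j a : k)) →
      L.ρ (List.ofFn f).prod = diagonal fun a => ((∏ j, d j a : kˣ) : k) := by
    intro m
    induction m with
    | zero => intro f d _; simp
    | succ m ih =>
      intro f d e
      rw [List.ofFn_succ, List.prod_cons, map_mul, e, ih _ (fun j => d j.succ) fun j => e j.succ,
        diagonal_mul_diagonal]
      simp [Fin.prod_univ_succ]
  exact this _ _ _ fun j => by rw [H.tor]; simp [RS.α]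

theorem σ_mul (t t' : Fin L.R.r → kˣ) : L.σ (t * t') = L.σ t * L.σ t' := H.inj (by
  simp only [map_mul, H.rho_σ, diagonal_mul_diagonal, Pi.mul_apply, mul_zpow,
    Finset.prod_mul_distrib, Units.val_mul])

theorem σ_one : L.σ 1 = 1 := H.inj (by simp [H.rho_σ])

theorem σ_inv (t : Fin L.R.r → kˣ) : L.σ t⁻¹ = (L.σ t)⁻¹ :=
  eq_inv_of_mul_eq_one_left (by rw [← H.σ_mul, inv_mul_cancel, H.σ_one])

theorem τ_eq_σ (y : L.R.Q) (t : kˣ) : L.τ y t = L.σ fun j => t ^ y j := H.inj (by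
  rw [H.tor, H.rho_σ]
  refine congrArg diagonal (funext fun a => congrArg Units.val ?_)
  simp only [← zpow_mul, dotProduct, mul_comm (y _)]
  exact Finset.cons_induction (by simp) (fun _ _ _ e => by
    rw [Finset.sum_cons, Finset.prod_cons, zpow_add, e]) Finset.univ)

theorem mem_S {s : G} : s ∈ L.S ↔ ∃ t, s = L.σ t := by
  refine ⟨fun a => ?_, ?_⟩
  · induction a using Subgroup.closure_induction with
    | mem x hx => obtain ⟨y, t, rfl⟩ := hx; exact ⟨_, H.τ_eq_σ y t⟩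
    | one => exact ⟨1, H.σ_one.symm⟩
    | mul x y _ _ a c => obtain ⟨t, rfl⟩ := a; obtain ⟨t', rfl⟩ := c; exact ⟨_, (H.σ_mul t t').symm⟩
    | inv x _ a => obtain ⟨t, rfl⟩ := a; exact ⟨_, (H.σ_inv t).symm⟩
  · rintro ⟨t, rfl⟩
    refine list_prod_mem fun x hx => ?_
    obtain ⟨j, rfl⟩ := List.mem_ofFn.1 hx
    exact τ_mem_S _ _

theorem σ_mem_Z0 (t : Fin L.R.r → kˣ) : L.σ t ∈ L.Z0 := H.S_le_Z0 (H.mem_S.2 ⟨t, rfl⟩)

theorem τ_pow (y : L.R.Q) (t : kˣ) (c : ℕ) : L.τ y (t ^ c) = L.τ y t ^ c :=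
  map_pow (MonoidHom.mk' (L.τ y) (H.τ_mul y)) t c

end Ok

end LD

end Vale.Agent.P092GP
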