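import Vale.Agent.P092GP.Bas

/-!
P092, group package: the chart of the maximal unipotent subgroup.
-/

set_option autoImplicit false
set_option linter.all false

namespace Vale.Agent.P092GP

open Matrix Vale.Agent.P183CH MvPolynomial

/-- The degrees of height at least `c`. -/
def dHt (r : ℕ) (c : ℕ) : AddSubsemigroup (Fin r → ℤ) where
  carrier := {μ | (c : ℤ) ≤ ∑ i, μ i}
  add_mem' := fun {a b} h h' => by
    simp only [Set.mem_setOf_eq, Pi.add_apply, Finset.sum_add_distrib] at h h' ⊢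
    omega

theorem ht_pos {r : ℕ} {μ : Fin r → ℤ} (h : 0 < μ) : 0 < ∑ i, μ i :=
  let ⟨h1, j, hj⟩ := Pi.lt_def.1 h
  Finset.sum_pos' (fun i _ => h1 i) ⟨j, Finset.mem_univ _, hj⟩

namespace LD

variable {k G : Type} [Field k] [Group G] {L : LD k G} {g g' u u' z : G} {w w' : L.R.Aut}
  {h h' : Fin L.R.r → ℝ} {γ : L.R.Q} {M M' : Matrix (Fin L.n) (Fin L.n) k} {j : Fin L.m}
  {F F' : AddSubsemigroup L.R.Q} {s : Fin L.m → k}

variable (L) in
/-- The coordinates of an element. -/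
def cf (g : G) (j : Fin L.m) : k := L.co j (L.ρ g)

variable (L) in
/-- The coordinates as linear forms. -/
def coL (j : Fin L.m) : Matrix (Fin L.n) (Fin L.n) k →ₗ[k] k where
  toFun := L.co j
  map_add' M M' := by simp [co, mul_add, Finset.sum_add_distrib]
  map_smul' c M := by simp [co, Finset.mul_sum, mul_left_comm]

theorem coL_apply (j : Fin L.m) (M : Matrix (Fin L.n) (Fin L.n) k) : L.coL j M = L.co j M := rfl

theorem co_add (j : Fin L.m) (M M' : Matrix (Fin L.n) (Fin L.n) k) :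
    L.co j (M + M') = L.co j M + L.co j M' := map_add (L.coL j) M M'

theorem co_sub (j : Fin L.m) (M M' : Matrix (Fin L.n) (Fin L.n) k) :
    L.co j (M - M') = L.co j M - L.co j M' := map_sub (L.coL j) M M'

theorem co_smul (j : Fin L.m) (c : k) (M : Matrix (Fin L.n) (Fin L.n) k) :
    L.co j (c • M) = c * L.co j M := map_smul (L.coL j) c M

namespace Ok

variable (H : L.Ok)
include H

theorem dg_pos (j : Fin L.m) : 0 < L.dg j := by
  obtain ⟨γ, h1, h2, c, h3, e⟩ := H.dg_root j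
  rw [e]
  exact nsmul_pos (root_pos H.root h1 h2) (Nat.mul_pos H.npos h3).ne'

theorem dg_ray (j : Fin L.m) : ∃ γ ∈ L.R.Pos, L.dg j ∈ dRay γ :=
  let ⟨γ, h1, h2, c, h3, e⟩ := H.dg_root j
  ⟨γ, ⟨h1, h2⟩, _, Nat.mul_pos H.npos h3, e⟩

theorem co_eq_zero {D : Set L.R.Q} (a : Sup L.wt D M) (b : L.dg j ∉ D) : L.co j M = 0 :=
  Finset.sum_eq_zero fun x _ => Finset.sum_eq_zero fun y _ => by
    by_cases c : L.wt x - L.wt y = L.dg j
    · rw [a x y (c ▸ b), mul_zero]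
    · rw [H.l_hom j x y c, zero_mul]

theorem co_one (j : Fin L.m) : L.co j 1 = 0 :=
  H.co_eq_zero (D := {0}) (Sup.one rfl) (H.dg_pos j).ne'

theorem cf_eq (g : G) (j : Fin L.m) : L.cf g j = L.co j (L.ρ g - 1) := by
  rw [co_sub, H.co_one, sub_zero, cf]

theorem cf_x (s : Fin L.m → k) : L.cf (L.x s) = s := funext (H.co_x s)

theorem cf_one : L.cf 1 = 0 := H.x_zero ▸ H.cf_x 0

theorem x_cf (a : u ∈ L.Up) : L.x (L.cf u) = u := by
  obtain ⟨s, rfl⟩ := H.x_onto u a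
  rw [H.cf_x]

theorem x_inj : Function.Injective L.x := Function.LeftInverse.injective H.cf_x

theorem eq_of_cf (a : u ∈ L.Up) (b : u' ∈ L.Up) (e : L.cf u = L.cf u') : u = u' := by
  rw [← H.x_cf a, e, H.x_cf b]

theorem x_apply (s : Fin L.m → k) (a b : Fin L.n) : L.ρ (L.x s) a b = eval s (L.e a b) := by
  rw [H.x_eq]
  rfl

theorem e_const (a b : Fin L.n) : constantCoeff (L.e a b) = (1 : Matrix _ _ k) a b := by
  rw [← map_one L.ρ, ← H.x_zero, H.x_apply, eval_zero]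

/-- The support of an element of the chart. -/
theorem x_mem_UD (a : ∀ j, s j ≠ 0 → L.dg j ∈ F) : L.x s ∈ UD L.wt L.ρ F := by
  classical
  refine sup_iff.2 fun x y c => ?_
  rw [Matrix.sub_apply, H.x_apply, ← H.e_const, ← eval_zero, eval_eq', eval_eq',
    ← Finset.sum_sub_distrib] at c
  obtain ⟨d, hd, c⟩ := Finset.exists_ne_zero_of_sum_ne_zero c
  have h0 : d ≠ 0 := by
    rintro rfl
    simp at c
  obtain ⟨i, hi⟩ := Finsupp.support_nonempty_iff.2 h0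
  rw [Finset.prod_eq_zero (f := fun i => (0 : Fin L.m → k) i ^ d i) (Finset.mem_univ i)
    (zero_pow (Finsupp.mem_support_iff.1 hi)), mul_zero, sub_zero] at c
  rw [← H.e_hom x y (left_ne_zero_of_mul c), Finsupp.weight_apply, Finsupp.sum]
  refine Finset.sum_induction_nonempty _ (· ∈ F) (fun _ _ => F.add_mem) ⟨i, hi⟩ fun j hj => ?_
  have h1 := Finsupp.mem_support_iff.1 hj
  have h2 := a j fun e => Finset.prod_ne_zero_iff.1 (right_ne_zero_of_mul c) j (Finset.mem_univ _)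
    (by rw [e, zero_pow h1])
  obtain ⟨m, hm⟩ := Nat.exists_eq_succ_of_ne_zero h1
  rw [hm]
  clear hm
  induction m with
  | zero => simpa using h2
  | succ m ih => rw [succ_nsmul]; exact F.add_mem ih h2

theorem x_mem (s : Fin L.m → k) : L.x s ∈ L.Up := H.x_mem_UD fun j _ => H.dg_pos j

theorem mem_Up_iff : u ∈ L.Up ↔ ∃ s, u = L.x s :=
  ⟨H.x_onto u, fun ⟨s, e⟩ => e ▸ H.x_mem s⟩

theorem cf_eq_zero (a : u ∈ UD L.wt L.ρ F) (b : L.dg j ∉ F) : L.cf u j = 0 := by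
  rw [H.cf_eq]
  exact H.co_eq_zero a b

theorem mem_UD_iff (a : u ∈ L.Up) : u ∈ UD L.wt L.ρ F ↔ ∀ j, L.cf u j ≠ 0 → L.dg j ∈ F :=
  ⟨fun b j => not_imp_comm.1 (H.cf_eq_zero b), fun b => H.x_cf a ▸ H.x_mem_UD b⟩

theorem single_mem_UD (a : L.dg j ∈ F) (t : k) : L.x (Pi.single j t) ∈ UD L.wt L.ρ F :=
  H.x_mem_UD fun i c => by
    by_cases e : i = j
    · rwa [e]
    · exact (c (by simp [e])).elim

theorem eq_one_of_dg (a : u ∈ L.Up) (b : u ∈ UD L.wt L.ρ F) (c : ∀ j, L.dg j ∉ F) : u = 1 := by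
  rw [← H.x_cf a, ← H.x_zero]
  exact congrArg L.x (funext fun j => H.cf_eq_zero b (c j))

theorem cf_mul (a : u ∈ UD L.wt L.ρ F) (b : u' ∈ UD L.wt L.ρ F')
    (c : ∀ x ∈ F, ∀ y ∈ F', x + y ≠ L.dg j) : L.cf (u * u') j = L.cf u j + L.cf u' j := by
  rw [H.cf_eq, H.cf_eq, H.cf_eq, map_mul, show L.ρ u * L.ρ u' - 1 =
    (L.ρ u - 1) * (L.ρ u' - 1) + ((L.ρ u - 1) + (L.ρ u' - 1)) by noncomm_ring, co_add, co_add,
    H.co_eq_zero (D := {L.dg j}ᶜ) (Sup.mul a b c) (by simp), zero_add]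

/-- Induction along the filtration by the height. -/
theorem ind {C : G → Prop} (hF : F ≤ dPos _) (h1 : C 1) (h2 : ∀ j, L.dg j ∈ F →
    (∀ u ∈ UD L.wt L.ρ F, ∀ t, C (L.x (Pi.single j t) * u) → C u) ∨
    ∀ u ∈ UD L.wt L.ρ F, ∀ t, C (u * L.x (Pi.single j t)) → C u) (a : u ∈ UD L.wt L.ρ F) :
    C u := by
  classical
  obtain ⟨T, hT⟩ : ∃ T : ℕ, ∀ j, ∑ i, L.dg j i < T := by
    obtain ⟨T, hT⟩ := (Set.finite_range fun j => ∑ i, L.dg j i).bddAbove
    exact ⟨T.toNat + 1, fun j => by have := hT ⟨j, rfl⟩; simp only at this; omega⟩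
  have hU : UD L.wt L.ρ F ≤ L.Up := UD_mono hF
  have key : ∀ (d c : ℕ), T ≤ c + 1 + d → ∀ (q : ℕ), ∀ u ∈ UD L.wt L.ρ F,
      u ∈ UD L.wt L.ρ (dHt _ (c + 1)) →
      (Finset.univ.filter fun j => L.cf u j ≠ 0 ∧ ∑ i, L.dg j i = (c + 1 : ℕ)).card = q → C u := by
    intro d
    induction d with
    | zero =>
      intro c hc q u a b _
      rw [H.eq_one_of_dg (hU a) b fun j e => by
        have := hT j
        have e' : ((c + 1 : ℕ) : ℤ) ≤ ∑ i, L.dg j i := e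
        omega]
      exact h1
    | succ d ih =>
      intro c hc q
      induction q with
      | zero =>
        intro u a b e
        refine ih (c + 1) (by omega) _ u a ((H.mem_UD_iff (hU a)).2 fun j f => ?_) rfl
        have h3 : ((c + 1 : ℕ) : ℤ) ≤ ∑ i, L.dg j i := (H.mem_UD_iff (hU a)).1 b j f
        have h4 : ∑ i, L.dg j i ≠ (c + 1 : ℕ) := fun g =>
          Finset.filter_eq_empty_iff.1 (Finset.card_eq_zero.1 e) (Finset.mem_univ j) ⟨f, g⟩
        show ((c + 1 + 1 : ℕ) : ℤ) ≤ ∑ i, L.dg j i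
        omega
      | succ q ih2 =>
        intro u a b e
        obtain ⟨j, hj⟩ := Finset.card_pos.1 ((Nat.succ_pos q).trans_eq e.symm)
        have hj' := (Finset.mem_filter.1 hj).2
        have h3 := (H.mem_UD_iff (hU a)).1 a j hj'.1
        have h4 := H.single_mem_UD h3 (-L.cf u j)
        have h5 := H.single_mem_UD (F := dHt _ (c + 1)) (j := j) hj'.2.ge (-L.cf u j)
        have h6 : ∀ i : Fin L.m, ∑ x, L.dg i x = (c + 1 : ℕ) → ∀ x ∈ dHt L.R.r (c + 1),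
            ∀ y ∈ dHt L.R.r (c + 1), x + y ≠ L.dg i := fun i hi x a y b e => by
          have a' : ((c + 1 : ℕ) : ℤ) ≤ ∑ i, x i := a
          have b' : ((c + 1 : ℕ) : ℤ) ≤ ∑ i, y i := b
          simp only [← e, Pi.add_apply, Finset.sum_add_distrib] at hi
          omega
        have h7 : ∀ v, (∀ i : Fin L.m, ∑ x, L.dg i x = (c + 1 : ℕ) →
            L.cf v i = L.cf u i + (Pi.single j (-L.cf u j) : Fin L.m → k) i) →
            (Finset.univ.filter fun j => L.cf v j ≠ 0 ∧ ∑ i, L.dg j i = (c + 1 : ℕ)).card = q := by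
          intro v hv
          rw [← Finset.card_erase_add_one hj, Nat.add_right_cancel_iff] at e
          rw [← e]
          congr 1
          ext i
          simp only [Finset.mem_filter, Finset.mem_univ, true_and, Finset.mem_erase]
          by_cases f : i = j
          · subst f
            simp [hv i hj'.2]
          · exact ⟨fun g => ⟨f, by simpa [hv i g.2, f] using g.1, g.2⟩,
              fun g => ⟨by simpa [hv i g.2.2, f] using g.2.1, g.2.2⟩⟩
        rcases h2 j h3 with f | f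
        · exact f u a _ (ih2 _ (mul_mem h4 a) (mul_mem h5 b) (h7 _ fun i hi => by
            rw [H.cf_mul h5 b (h6 i hi), H.cf_x, add_comm]))
        · exact f u a _ (ih2 _ (mul_mem a h4) (mul_mem b h5) (h7 _ fun i hi => by
            rw [H.cf_mul b h5 (h6 i hi), H.cf_x]))
  exact key T 0 (by omega) _ u a (UD_mono (fun x c => show ((0 + 1 : ℕ) : ℤ) ≤ _ from
    ht_pos (hF c)) a) rfl

/-- Splitting of a unipotent group in two parts. -/
theorem split {F₁ F₂ : AddSubsemigroup L.R.Q} (hF : F ≤ dPos _)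
    (e : ∀ j, L.dg j ∈ F → L.dg j ∈ F₁ ∨ L.dg j ∈ F₂) (a : u ∈ UD L.wt L.ρ F) :
    ∃ x ∈ UD L.wt L.ρ (F ⊓ F₁), ∃ y ∈ UD L.wt L.ρ (F ⊓ F₂), u = x * y := by
  refine H.ind (C := fun u => ∃ x ∈ UD L.wt L.ρ (F ⊓ F₁), ∃ y ∈ UD L.wt L.ρ (F ⊓ F₂), u = x * y)
    hF ⟨1, one_mem _, 1, one_mem _, (one_mul 1).symm⟩ (fun j hj => (e j hj).imp ?_ ?_) a
  · rintro c u - t ⟨x, hx, y, hy, f⟩
    exact ⟨_, mul_mem (inv_mem (H.single_mem_UD (F := F ⊓ F₁) ⟨hj, c⟩ t)) hx, y, hy, by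
      rw [mul_assoc, ← f, inv_mul_cancel_left]⟩
  · rintro c u - t ⟨x, hx, y, hy, f⟩
    exact ⟨x, hx, _, mul_mem hy (inv_mem (H.single_mem_UD (F := F ⊓ F₂) ⟨hj, c⟩ t)), by
      rw [← mul_assoc, ← f, mul_inv_cancel_right]⟩

/-- Generation by the coordinate curves. -/
theorem UD_le {K : Subgroup G} (hF : F ≤ dPos _)
    (e : ∀ j, L.dg j ∈ F → ∀ t, L.x (Pi.single j t) ∈ K) : UD L.wt L.ρ F ≤ K := fun u a =>
  H.ind (C := (· ∈ K)) hF (one_mem _)
    (fun j hj => Or.inl fun _ _ t c => (K.mul_mem_cancel_left (e j hj t)).1 c) a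

/-- Generation by the root groups. -/
theorem UD_le' {K : Subgroup G} (hF : F ≤ dPos _)
    (e : ∀ γ ∈ L.R.Pos, (∃ x ∈ F, x ∈ dRay γ) → L.X γ ≤ K) : UD L.wt L.ρ F ≤ K :=
  H.UD_le hF fun j hj t =>
    let ⟨γ, a, b⟩ := H.dg_ray j
    e γ a ⟨_, hj, b⟩ (H.single_mem_UD b t)

theorem single_ne_one (j : Fin L.m) {t : k} (ht : t ≠ 0) : L.x (Pi.single j t) ≠ 1 := fun e =>
  ht (by simpa using congrFun (H.x_inj (e.trans H.x_zero.symm)) j)

theorem exists_X (i : Fin L.R.r) : ∃ u ∈ L.X (L.R.α i), u ≠ 1 :=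
  let ⟨j, e⟩ := H.dg_simple i
  ⟨_, H.single_mem_UD (j := j) (mem_dRay.2 ⟨_, H.npos, e⟩) 1, H.single_ne_one j one_ne_zero⟩

theorem exists_wt (j : Fin L.m) : ∃ a b, L.wt a - L.wt b = L.dg j := by
  by_contra c
  push Not at c
  have := H.co_eq_zero (j := j) (M := L.ρ (L.x (Pi.single j 1))) (D := {L.dg j}ᶜ)
    (fun a b d => (d (c a b)).elim) (by simp)
  rw [H.co_x] at this
  simp at this

theorem exists_wt_α (i : Fin L.R.r) : ∃ a b, L.wt a - L.wt b = L.N • L.R.α i :=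
  let ⟨j, e⟩ := H.dg_simple i
  e ▸ H.exists_wt j

theorem aut_ext (e : ∀ b, w (L.wt b) = w' (L.wt b)) : w = w' := RS.aut_ext fun i => by
  obtain ⟨a, b, c⟩ := H.exists_wt_α i
  have := congrArg₂ (· - ·) (e a) (e b)
  simp only [← map_sub, c, map_nsmul] at this
  exact nsmul_right_injective H.npos.ne' this

theorem coch_ext (e : ∀ b, pr (L.wt b) h = pr (L.wt b) h') : h = h' := funext fun i => by
  obtain ⟨a, b, c⟩ := H.exists_wt_α i
  have := congrArg₂ (· - ·) (e a) (e b)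
  simp only [← pr_sub, c, pr_nsmul, pr_α] at this
  exact mul_left_cancel₀ (Nat.cast_ne_zero.2 H.npos.ne') this

theorem rep_uniq (a : L.Rep g w) (b : L.Rep g w') : w = w' := H.aut_ext (a.eq_wt b)

theorem rep_tw (a : L.Rep g w) (b : g ∈ L.P h) : tw w h = h := by
  obtain ⟨σ, hσ⟩ := exists_perm (rho_det_ne (ρ := L.ρ) g)
  refine H.coch_ext fun c => ?_
  rw [pr_tw, ← ty_iff.1 a _ _ (hσ c)]
  exact not_not.1 fun d => hσ c (mem_Z.1 (a.mem_Z b) _ _ d)

/-- The torus acts on the chart by scaling the coordinates. -/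
theorem cf_τ (y : L.R.Q) (t : kˣ) (g : G) (j : Fin L.m) :
    L.cf (L.τ y t * g * (L.τ y t)⁻¹) j = ((t ^ (L.dg j ⬝ᵥ y) : kˣ) : k) * L.cf g j := by
  simp only [cf, co, H.τ_conj, Finset.mul_sum]
  refine Finset.sum_congr rfl fun a _ => Finset.sum_congr rfl fun b _ => ?_
  by_cases c : L.wt a - L.wt b = L.dg j
  · rw [c]; ring
  · rw [H.l_hom j a b c]; ring

theorem τ_x (y : L.R.Q) (t : kˣ) (s : Fin L.m → k) : L.τ y t * L.x s * (L.τ y t)⁻¹ =
    L.x fun j => ((t ^ (L.dg j ⬝ᵥ y) : kˣ) : k) * s j :=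
  H.eq_of_cf (Z0_conj_UD (H.τ_mem_Z0 y t) (H.x_mem s)) (H.x_mem _) (funext fun j => by
    rw [H.cf_τ, H.cf_x, H.cf_x])

end Ok

end LD

end Vale.Agent.P092GP
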