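import Vale.Agent.P183CH2.Defs
import Mathlib.RingTheory.MvPolynomial.WeightedHomogeneous
import Mathlib.LinearAlgebra.Matrix.Charpoly.Basic

/-!
P092, group package: the linear package of an isotropic simple group. Definitions.

The roots of `R` are the non-divisible relative roots, in the coordinates given by the simple roots.
The weights `wt a` are written in the basis `α_j / N`. A cocharacter `h` is written in the dual
basis. All subgroups are defined by the vanishing of matrix entries.
-/

set_option autoImplicit false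
set_option linter.all false

namespace Vale.Agent.P092GP

open Matrix Vale.Agent.P183CH

/-- The pairing of a weight with a real cocharacter. -/
def pr {r : ℕ} (μ : Fin r → ℤ) (h : Fin r → ℝ) : ℝ := ∑ j, (μ j : ℝ) * h j

theorem pr_add {r : ℕ} (μ ν : Fin r → ℤ) (h : Fin r → ℝ) : pr (μ + ν) h = pr μ h + pr ν h := by
  simp [pr, add_mul, Finset.sum_add_distrib]

theorem pr_zero {r : ℕ} (h : Fin r → ℝ) : pr 0 h = 0 := by simp [pr]

section sup

variable {k Q : Type} [Field k] [AddCommGroup Q] {n : ℕ} (wt : Fin n → Q)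

/-- The matrix `M` is supported in the degrees `D`. -/
def Sup (D : Set Q) (M : Matrix (Fin n) (Fin n) k) : Prop :=
  ∀ a b, wt a - wt b ∉ D → M a b = 0

/-- The matrix `M` maps the weight space `μ` to the weight space `w μ`. -/
def Ty (w : Q → Q) (M : Matrix (Fin n) (Fin n) k) : Prop :=
  ∀ a b, wt a ≠ w (wt b) → M a b = 0

variable {wt} {D D' D'' : Set Q} {M M' : Matrix (Fin n) (Fin n) k}

theorem Sup.mono (h : Sup wt D M) (e : D ⊆ D') : Sup wt D' M := fun a b c => h a b fun d => c (e d)

theorem Sup.add (h : Sup wt D M) (h' : Sup wt D M') : Sup wt D (M + M') := fun a b c => by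
  rw [Matrix.add_apply, h a b c, h' a b c, add_zero]

theorem Sup.smul (h : Sup wt D M) (c : k) : Sup wt D (c • M) := fun a b e => by
  rw [Matrix.smul_apply, h a b e, smul_zero]

theorem Sup.neg (h : Sup wt D M) : Sup wt D (-M) := fun a b e => by
  rw [Matrix.neg_apply, h a b e, neg_zero]

theorem Sup.sub (h : Sup wt D M) (h' : Sup wt D M') : Sup wt D (M - M') := fun a b c => by
  rw [Matrix.sub_apply, h a b c, h' a b c, sub_zero]

theorem Sup.zero : Sup wt D (0 : Matrix (Fin n) (Fin n) k) := fun _ _ _ => rfl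

theorem Sup.one (h : (0 : Q) ∈ D) : Sup wt D (1 : Matrix (Fin n) (Fin n) k) := fun a b c =>
  one_apply_ne fun e => c (by rw [e, sub_self]; exact h)

theorem Sup.mul (h : Sup wt D M) (h' : Sup wt D' M') (e : ∀ x ∈ D, ∀ y ∈ D', x + y ∈ D'') :
    Sup wt D'' (M * M') := fun a b c => by
  rw [Matrix.mul_apply]
  refine Finset.sum_eq_zero fun x _ => ?_
  by_cases h1 : wt a - wt x ∈ D
  · rw [h' x b fun h2 => c (by simpa using e _ h1 _ h2), mul_zero]
  · rw [h a x h1, zero_mul]

variable (k wt) in
/-- The algebra of the matrices supported in a monoid of degrees. -/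
def supAlg (D : AddSubmonoid Q) : Subalgebra k (Matrix (Fin n) (Fin n) k) where
  carrier := {M | Sup wt D M}
  mul_mem' := fun h h' => h.mul h' fun _ a _ b => D.add_mem a b
  add_mem' := fun h h' => h.add h'
  algebraMap_mem' := fun c => by
    rw [Algebra.algebraMap_eq_smul_one]
    exact (Sup.one D.zero_mem).smul c

theorem inv_mem_alg (S : Subalgebra k (Matrix (Fin n) (Fin n) k)) (h : M ∈ S) (e : M * M' = 1) :
    M' ∈ S := by
  have hi : Function.Injective (LinearMap.mulLeft k (⟨M, h⟩ : S)) := fun x y c => by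
    have := congrArg (fun z : S => M' * z.1) c
    simp only [LinearMap.mulLeft_apply, MulMemClass.coe_mul, ← mul_assoc, mul_eq_one_comm.1 e,
      one_mul] at this
    exact Subtype.ext this
  obtain ⟨x, hx⟩ := LinearMap.injective_iff_surjective.1 hi 1
  have h2 : M * x.1 = 1 := congrArg Subtype.val hx
  have : M' = x.1 := by rw [← mul_one M', ← h2, ← mul_assoc, mul_eq_one_comm.1 e, one_mul]
  exact this ▸ x.2

variable {G : Type} [Group G] (ρ : G →* Matrix (Fin n) (Fin n) k) (wt)

/-- The elements supported in the monoid `D`. -/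
def PD (D : AddSubmonoid Q) : Subgroup G where
  carrier := {g | Sup wt D (ρ g)}
  one_mem' := by
    show Sup wt D (ρ 1)
    rw [map_one]
    exact Sup.one D.zero_mem
  mul_mem' := fun {a b} h h' => by
    show Sup wt D (ρ (a * b))
    rw [map_mul]
    exact (supAlg k wt D).mul_mem h h'
  inv_mem' := fun {a} h => inv_mem_alg (supAlg k wt D) h (by rw [← map_mul, mul_inv_cancel, map_one])

/-- The elements `g` with `g - 1` supported in the semigroup `D`. -/
def UD (D : AddSubsemigroup Q) : Subgroup G where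
  carrier := {g | Sup wt D (ρ g - 1)}
  one_mem' := by
    show Sup wt D (ρ 1 - 1)
    rw [map_one, sub_self]
    exact Sup.zero
  mul_mem' := fun {a b} h h' => by
    show Sup wt D (ρ (a * b) - 1)
    rw [map_mul, show ρ a * ρ b - 1 = (ρ a - 1) * (ρ b - 1) + (ρ a - 1) + (ρ b - 1) by noncomm_ring]
    exact ((Sup.mul h h' fun _ a _ b => D.add_mem a b).add h).add h'
  inv_mem' := fun {a} h => by
    let E : AddSubmonoid Q :=
      { carrier := {x | x = 0 ∨ x ∈ D}
        zero_mem' := Or.inl rfl
        add_mem' := by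
          rintro x y (rfl | c) (rfl | d)
          · exact Or.inl (add_zero _)
          · exact Or.inr (by rwa [zero_add])
          · exact Or.inr (by rwa [add_zero])
          · exact Or.inr (D.add_mem c d) }
    have h1 : a ∈ PD wt ρ E := by
      have := (Sup.mono (D' := E) h fun _ c => Or.inr c).add (Sup.one E.zero_mem)
      rwa [sub_add_cancel] at this
    show Sup wt D (ρ a⁻¹ - 1)
    rw [show ρ a⁻¹ - 1 = -(ρ a⁻¹ * (ρ a - 1)) by
      rw [mul_sub, ← map_mul, inv_mul_cancel, map_one, mul_one, neg_sub]]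
    refine (Sup.mul (inv_mem h1 : a⁻¹ ∈ PD wt ρ E) h ?_).neg
    rintro x (rfl | c) y d
    · rwa [zero_add]
    · exact D.add_mem c d

end sup

section deg

variable {r : ℕ}

/-- The degrees on which `h` is non-negative. -/
def dGe (h : Fin r → ℝ) : AddSubmonoid (Fin r → ℤ) where
  carrier := {μ | 0 ≤ pr μ h}
  add_mem' := fun {a b} c d => (add_nonneg c d).trans_eq (pr_add a b h).symm
  zero_mem' := (pr_zero h).ge

/-- The degrees on which `h` vanishes. -/
def dEq (h : Fin r → ℝ) : AddSubmonoid (Fin r → ℤ) where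
  carrier := {μ | pr μ h = 0}
  add_mem' := fun {a b} c d => (pr_add a b h).trans (by rw [c, d, add_zero])
  zero_mem' := pr_zero h

/-- The degrees on which `h` is positive. -/
def dGt (h : Fin r → ℝ) : AddSubsemigroup (Fin r → ℤ) where
  carrier := {μ | 0 < pr μ h}
  add_mem' := fun {a b} c d => (add_pos c d).trans_eq (pr_add a b h).symm

/-- The non-negative degrees. -/
def dNn (r : ℕ) : AddSubmonoid (Fin r → ℤ) where
  carrier := {μ | 0 ≤ μ}
  add_mem' := fun c d => add_nonneg (α := Fin r → ℤ) c d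
  zero_mem' := le_refl (0 : Fin r → ℤ)

/-- The non-positive degrees. -/
def dNp (r : ℕ) : AddSubmonoid (Fin r → ℤ) where
  carrier := {μ | μ ≤ 0}
  add_mem' := fun c d => add_nonpos (α := Fin r → ℤ) c d
  zero_mem' := le_refl (0 : Fin r → ℤ)

/-- The positive degrees. -/
def dPos (r : ℕ) : AddSubsemigroup (Fin r → ℤ) where
  carrier := {μ | 0 < μ}
  add_mem' := fun c d => add_pos (α := Fin r → ℤ) c d

/-- The negative degrees. -/
def dNeg (r : ℕ) : AddSubsemigroup (Fin r → ℤ) where
  carrier := {μ | μ < 0}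
  add_mem' := fun c d => add_neg (α := Fin r → ℤ) c d

/-- The positive multiples of `γ`. -/
def dRay (γ : Fin r → ℤ) : AddSubsemigroup (Fin r → ℤ) :=
  ⟨{μ | ∃ c : ℕ, 0 < c ∧ μ = c • γ}, by
    rintro _ _ ⟨c, hc, rfl⟩ ⟨d, -, rfl⟩
    exact ⟨c + d, Nat.add_pos_left hc d, (add_nsmul γ c d).symm⟩⟩

end deg

/-- The data of a linear package: the root system, a representation with its weights, the split
torus, a polynomial chart `x` of the maximal unipotent subgroup (matrix `e`, degrees `dg` of the
coordinates) and the linear forms `l j` which give the coordinates. -/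
structure LD (k G : Type) [Field k] [Group G] where
  R : RS
  n : ℕ
  N : ℕ
  m : ℕ
  ρ : G →* Matrix (Fin n) (Fin n) k
  wt : Fin n → R.Q
  τ : R.Q → kˣ → G
  dg : Fin m → R.Q
  e : Matrix (Fin n) (Fin n) (MvPolynomial (Fin m) k)
  x : (Fin m → k) → G
  l : Fin m → Matrix (Fin n) (Fin n) k

namespace LD

variable {k G : Type} [Field k] [Group G] (L : LD k G)

/-- The parabolic subgroup of the direction `h`. -/
def P (h : Fin L.R.r → ℝ) : Subgroup G := PD L.wt L.ρ (dGe h)

/-- Its unipotent radical. -/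
def U (h : Fin L.R.r → ℝ) : Subgroup G := UD L.wt L.ρ (dGt h)

/-- Its Levi subgroup, the centraliser of `h`. -/
def Z (h : Fin L.R.r → ℝ) : Subgroup G := PD L.wt L.ρ (dEq h)

/-- The minimal parabolic subgroup. -/
def B : Subgroup G := PD L.wt L.ρ (dNn _)

/-- The opposite minimal parabolic subgroup. -/
def Bm : Subgroup G := PD L.wt L.ρ (dNp _)

/-- The unipotent radical of `B`. -/
def Up : Subgroup G := UD L.wt L.ρ (dPos _)

/-- The unipotent radical of `Bm`. -/
def Um : Subgroup G := UD L.wt L.ρ (dNeg _)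

/-- The centraliser of the split torus. -/
def Z0 : Subgroup G := PD L.wt L.ρ ⊥

/-- The root group of the ray through `γ`. -/
def X (γ : L.R.Q) : Subgroup G := UD L.wt L.ρ (dRay γ)

/-- The split torus (the part generated by the cocharacters of the lattice). -/
def S : Subgroup G := Subgroup.closure {g | ∃ h t, g = L.τ h t}

/-- The subgroup generated by the unipotent radicals. -/
def Gp : Subgroup G := L.Up ⊔ L.Um

/-- `g` represents the linear map `w` of the weights. -/
def Rep (g : G) (w : L.R.Q → L.R.Q) : Prop := Ty L.wt w (L.ρ g)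

/-- The coordinate `j` of a matrix. -/
def co (j : Fin L.m) (M : Matrix (Fin L.n) (Fin L.n) k) : k := ∑ a, ∑ b, L.l j a b * M a b

/-- The algebraic axioms. -/
structure Ok : Prop where
  root : L.R.Ok
  npos : 0 < L.N
  inj : Function.Injective L.ρ
  det : ∀ g, (L.ρ g).det = 1
  tor : ∀ h t, L.ρ (L.τ h t) = diagonal fun a => ((t ^ (L.wt a ⬝ᵥ h) : kˣ) : k)
  dg_root : ∀ j, ∃ γ ∈ L.R.Φ, 0 ≤ γ ∧ ∃ c : ℕ, 0 < c ∧ L.dg j = (L.N * c) • γ
  dg_simple : ∀ i, ∃ j, L.dg j = L.N • L.R.α i
  e_hom : ∀ a b, (L.e a b).IsWeightedHomogeneous L.dg (L.wt a - L.wt b)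
  x_eq : ∀ s, L.ρ (L.x s) = L.e.map (MvPolynomial.eval s)
  x_zero : L.x 0 = 1
  x_onto : ∀ g ∈ L.Up, ∃ s, g = L.x s
  l_hom : ∀ j, Sup L.wt {L.dg j} (L.l j)
  co_x : ∀ s j, L.co j (L.ρ (L.x s)) = s j
  weyl : ∀ i, ∀ u ∈ L.X (L.R.α i), u ≠ 1 → ∃ v ∈ L.X (-L.R.α i), ∃ v' ∈ L.X (-L.R.α i),
    L.Rep (v * u * v') (L.R.s i)
  gen : L.Z0 ⊔ L.Gp = ⊤

end LD

end Vale.Agent.P092GP
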