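import Vale.Agent.P092GP.Cell
import Vale.Agent.P092TS.Tits
import Vale.Agent.P092.H710.Rp.Del

/-!
P092, group package: dominant weights, reduced words, principal minors.
-/

set_option autoImplicit false
set_option linter.all false

namespace Vale.Agent.P092GP

open Matrix Vale.Agent.P183CH

section root

variable {R : RS} (hR : R.Ok) {w : R.Aut} {χ γ δ : R.Q} {i j : Fin R.r}

/-- The partial products of a word. -/
noncomputable def pw {A I : Type} [Monoid A] (s : I → A) (τ : ℕ → I) : ℕ → A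
  | 0 => 1
  | n + 1 => pw s τ n * s (τ n)

theorem pw_congr {A I : Type} [Monoid A] (s : I → A) {τ τ' : ℕ → I} {n : ℕ}
    (e : ∀ m < n, τ m = τ' m) : pw s τ n = pw s τ' n := by
  induction n with
  | zero => rfl
  | succ n ih => rw [pw, pw, ih fun m a => e m (by omega), e n (by omega)]

theorem pw_mem (τ : ℕ → Fin R.r) (n : ℕ) : pw R.sE τ n ∈ R.W := by
  induction n with
  | zero => exact one_mem _
  | succ n ih => exact mul_mem ih (R.sE_mem_W _)

include hR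

theorem le_of_dom (h : ∀ i, 0 ≤ R.pr χ i) (hw : w ∈ R.W) : w χ ≤ χ :=
  hR.ind (P := fun w => w χ ≤ χ) le_rfl (fun w _ j _ a b => by
    rw [RS.mul_app, hR.sE_eq, map_sub, map_smul]
    exact (sub_le_self _ (smul_nonneg (h j) a)).trans b) hw

theorem pos_of_dom (h : ∀ i, 0 ≤ R.pr χ i) (h0 : χ ≠ 0) (i : Fin R.r) : 0 < χ i := by
  by_contra c
  refine h0 (P092TS.eq_zero_of_pr hR (h := -Pi.single i 1) (by simp) fun w hw => ?_)
  rw [pr_neg', pr_single', neg_nonneg, Int.cast_nonpos]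
  exact (le_of_dom hR h hw i).trans (not_lt.1 c)

theorem B_zero (h : R.pr χ i = 0) : R.B (R.α i) χ = 0 := by
  have := hR.pr_B χ i
  rw [h, hR.B_comm χ] at this
  omega

theorem B_pos_of (h1 : 0 < χ j) (h2 : ∀ i, i ≠ j → R.pr χ i = 0) : 0 < R.B (R.α j) χ := by
  have := hR.B_pos (γ := χ) fun e => h1.ne' (congrFun e j)
  rw [hR.B_sum, Finset.sum_eq_single j (fun i _ e => by rw [B_zero hR (h2 i e), mul_zero])
    (by simp)] at this
  exact pos_of_mul_pos_right this h1.le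

theorem pr_pos_of (h1 : 0 < χ j) (h2 : ∀ i, i ≠ j → R.pr χ i = 0) : 0 < R.pr χ j :=
  pos_of_mul_pos_left (by rw [hR.pr_B, hR.B_comm]; linarith [B_pos_of hR h1 h2]) (hR.B_α_pos j).le

theorem tw_of_fix (h1 : 0 < χ j) (h2 : ∀ i, i ≠ j → R.pr χ i = 0) (hw : w ∈ R.W) (e : w χ = χ) :
    tw w (Pi.single j 1) = Pi.single j 1 := by
  have h3 : ∀ μ, pr μ (fun i => (R.B (R.α i) χ : ℝ)) = R.B μ χ := fun μ => by
    rw [hR.B_sum μ, pr]
    push_cast
    rfl
  have h4 := mem_WJ_of_tw hR hw (h := fun i => (R.B (R.α i) χ : ℝ)) (fun i => by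
    by_cases c : i = j
    · exact Int.cast_nonneg_iff.2 (c ▸ B_pos_of hR h1 h2).le
    · simp [B_zero hR (h2 i c)]) (funext fun i => by rw [tw, h3, ← hR.B_inv hw (R.α i), e])
  refine tw_of_mem_WJ hR (Subgroup.closure_mono (Set.image_mono fun i c => ?_) h4)
  refine Pi.single_eq_of_ne ?_ _
  rintro rfl
  exact (B_pos_of hR h1 h2).ne' (by exact_mod_cast c)

theorem sE_of_In (h : R.In {i} γ) : R.sE i γ = -γ := by
  have : γ = γ i • R.α i := funext fun x => by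
    by_cases e : x = i
    · simp [e, RS.α_self]
    · simp [h x e, RS.α_ne e]
  rw [this, map_smul, hR.sE_α, smul_neg]

theorem exists_word (hw : w ∈ R.W) : ∃ N τ, pw R.sE τ N = w ∧ ∀ n < N, 0 ≤ pw R.sE τ n (R.α (τ n)) := by
  refine hR.ind (P := fun w => ∃ N τ, pw R.sE τ N = w ∧ ∀ n < N, 0 ≤ pw R.sE τ n (R.α (τ n)))
    ⟨0, fun _ => ⟨0, hR.pos⟩, rfl, by simp⟩ ?_ hw
  rintro _ - j - a ⟨N, τ, rfl, c⟩
  have e : ∀ n ≤ N, pw R.sE (Function.update τ N j) n = pw R.sE τ n := fun n b =>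
    pw_congr _ fun m d => Function.update_of_ne (by omega) _ _
  refine ⟨N + 1, Function.update τ N j, by rw [pw, e N le_rfl, Function.update_self], fun n b => ?_⟩
  rw [e n (by omega)]
  rcases (Nat.le_of_lt_succ b).eq_or_lt with rfl | d
  · rwa [Function.update_self]
  · rw [Function.update_of_ne d.ne]
    exact c n d

theorem word_ne {N : ℕ} {τ : ℕ → Fin R.r} (h : ∀ n < N, 0 ≤ pw R.sE τ n (R.α (τ n))) {n m : ℕ}
    (h1 : n < m) (h2 : m < N) : pw R.sE τ n (R.α (τ n)) ≠ pw R.sE τ m (R.α (τ m)) := by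
  have h3 := hR.map_mem (pw_mem τ n) (hR.simple (τ n))
  have : ∀ m, n < m → m ≤ N → (pw R.sE τ m)⁻¹ (pw R.sE τ n (R.α (τ n))) ≤ 0 := by
    intro m a
    induction m, a using Nat.le_induction with
    | base =>
      intro _
      rw [pw, _root_.mul_inv_rev, RS.mul_app, RS.inv_app, hR.sE_inv, hR.sE_α]
      exact neg_nonpos.2 (RS.α_nonneg _)
    | succ m a ih =>
      intro b
      rw [pw, _root_.mul_inv_rev, RS.mul_app, hR.sE_inv, ← neg_nonneg, ← map_neg]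
      refine (hR.s_pos ⟨hR.neg_mem (hR.map_mem (inv_mem (pw_mem τ m)) h3),
        neg_nonneg.2 (ih (by omega))⟩ fun e => hR.not_both h3 (h n (by omega)) ?_).2
      rw [← RS.app_inv (pw R.sE τ m) (pw R.sE τ n _), neg_eq_iff_eq_neg.1 e, map_neg]
      exact neg_nonpos.2 (h m b)
  intro e
  have := this m h1 h2.le
  rw [e, RS.inv_app] at this
  exact hR.not_both (hR.simple _) (RS.α_nonneg _) this

theorem exists_sep (a : γ ∈ R.Pos) (b : δ ∈ R.Pos) (e : γ ≠ δ) :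
    ∃ y : R.Q, γ ⬝ᵥ y ≠ 0 ∧ δ ⬝ᵥ y = 0 := by
  obtain ⟨i, hi⟩ := hR.exists_pos b
  by_contra c
  push Not at c
  rcases hR.reduced a.1 b.1 (a := δ i) (b := γ i) hi.ne' (funext fun x => by_contra fun d =>
    c (Pi.single x (δ i) - Pi.single i (δ x)) (by
      rw [dotProduct_sub, dotProduct_single, dotProduct_single, sub_ne_zero, mul_comm]
      exact d) (by rw [dotProduct_sub, dotProduct_single, dotProduct_single, mul_comm, sub_self]))
    with f | f
  · exact e f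
  · exact hR.not_both a.1 a.2 (f ▸ neg_nonpos.2 b.2)

theorem exists_ι (h : R.Lg Set.univ w) : ∃ ι : Equiv.Perm (Fin R.r), ∀ i, w (R.α (ι i)) = -R.α i := by
  choose f _ hf using fun i => hR.Lg_α h (Set.mem_univ i)
  have h1 : ∀ i, w (R.α (f i)) = -R.α i := fun i => by
    rw [← neg_neg (R.α (f i)), ← hf, map_neg, ← RS.mul_app, hR.Lg_mul_self h, RS.one_app]
  exact ⟨Function.Involutive.toPerm f fun i => RS.α_inj (neg_inj.1 ((hf _).symm.trans (h1 i))), h1⟩

end root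

theorem exists_perm' {k ι : Type} [Field k] [Fintype ι] [DecidableEq ι] {M : Matrix ι ι k}
    (h : M.det ≠ 0) : ∃ σ : Equiv.Perm ι, ∀ b, M (σ b) b ≠ 0 := by
  rw [det_apply] at h
  obtain ⟨σ, -, hσ⟩ := Finset.exists_ne_zero_of_sum_ne_zero h
  exact ⟨σ, fun b => Finset.prod_ne_zero_iff.1 (right_ne_zero_of_smul hσ) b (Finset.mem_univ _)⟩

theorem sum_sub {k ι : Type} [AddCommMonoid k] [Fintype ι] {p : ι → Prop} [DecidablePred p]
    {f : ι → k} (h : ∀ x, ¬ p x → f x = 0) : ∑ x, f x = ∑ x : {x // p x}, f x.1 := by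
  rw [← Fintype.sum_subtype_add_sum_subtype p, Finset.sum_eq_zero fun (x : {x // ¬ p x}) _ => h x x.2,
    add_zero]

namespace LD

variable {k G : Type} [Field k] [Group G] {L : LD k G} {g g' n u v z b : G} {w : L.R.Aut}
  {i j : Fin L.R.r}

variable (L) in
/-- The indices of the weights with positive coordinate `j`. -/
abbrev IJ (j : Fin L.R.r) : Type := {a : Fin L.n // 0 < L.wt a j}

variable (L) in
/-- The highest weight. -/
def χ (j : Fin L.R.r) : L.R.Q := ∑ a : L.IJ j, L.wt a.1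

variable (L) in
/-- The vector of the minors with columns in `IJ j`. -/
def mv (j : Fin L.R.r) (g : G) (a : L.IJ j → Fin L.n) : k :=
  (of fun p q : L.IJ j => L.ρ g (a p) q.1).det

variable (L) in
/-- The principal minor. -/
def Δ (j : Fin L.R.r) (g : G) : k := L.mv j g Subtype.val

theorem T_mv (j : Fin L.R.r) (g g' : G) :
    P092.H710.Rp.T (L.ρ g) (L.mv j g') = L.mv j (g * g') := by
  have : ∀ g, L.mv j g = P092.H710.Rp.T (L.ρ g) (P092.H710.Rp.tv (fun _ => ()) Subtype.val) :=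
    fun g => funext fun a => by
      rw [P092.H710.Rp.T_tv]
      rfl
  rw [this, this, map_mul, P092.H710.Rp.T_mul]

theorem mv_P (a : b ∈ L.P (Pi.single j 1)) (g : G) : L.mv j (g * b) = L.Δ j b • L.mv j g :=
  funext fun x => by
    rw [Pi.smul_apply, smul_eq_mul, mul_comm, Δ, mv, mv, mv, ← det_mul]
    refine congrArg det (Matrix.ext fun p q => ?_)
    rw [of_apply, map_mul, Matrix.mul_apply, Matrix.mul_apply]
    exact sum_sub fun y c => by
      rw [mem_P.1 a y q (by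
        rw [pr_single', pr_single', Int.cast_lt]
        exact (not_lt.1 c).trans_lt q.2), mul_zero]

theorem Δ_right (a : b ∈ L.P (Pi.single j 1)) (g : G) : L.Δ j (g * b) = L.Δ j b * L.Δ j g :=
  congrFun (mv_P a g) _

theorem Δ_left (a : b ∈ L.P (-Pi.single j 1)) (g : G) : L.Δ j (b * g) = L.Δ j b * L.Δ j g := by
  rw [Δ, Δ, Δ, mv, mv, mv, ← det_mul]
  refine congrArg det (Matrix.ext fun p q => ?_)
  rw [of_apply, map_mul, Matrix.mul_apply, Matrix.mul_apply]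
  exact sum_sub fun y c => by
    rw [mem_P.1 a p y (by
      rw [pr_neg', pr_neg', pr_single', pr_single', neg_lt_neg_iff, Int.cast_lt]
      exact (not_lt.1 c).trans_lt p.2), zero_mul]

theorem Δ_un {y : Fin L.n → ℤ} (a : P092AL.Un y (L.ρ u)) (j : Fin L.R.r) : L.Δ j u = 1 :=
  P092AL.Un.det (y := fun p : L.IJ j => y p.1) fun p q e => a p q (by
    simpa only [Matrix.sub_apply, of_apply, one_apply, Subtype.ext_iff] using e)

theorem Δ_Up (a : u ∈ L.Up) (j : Fin L.R.r) : L.Δ j u = 1 := Δ_un (un_Up a) j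

theorem Δ_Um (a : u ∈ L.Um) (j : Fin L.R.r) : L.Δ j u = 1 := Δ_un (un_Um a) j

theorem Δ_one (j : Fin L.R.r) : L.Δ j 1 = 1 := Δ_Up (one_mem _) j

theorem Δ_ne (a : b ∈ L.P (Pi.single j 1)) : L.Δ j b ≠ 0 :=
  left_ne_zero_of_mul_eq_one ((Δ_right a b⁻¹).symm.trans (by rw [inv_mul_cancel, Δ_one]))

theorem Δ_cell (a : v ∈ L.Um) (c : u ∈ L.Up) (g : G) (j : Fin L.R.r) :
    L.Δ j (v * g * u) = L.Δ j g := by
  rw [Δ_right (mem_B_iff.1 (Up_le_B c) j), Δ_left (mem_Bm_iff.1 (Um_le_Bm a) j), Δ_Up c, Δ_Um a,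
    one_mul, one_mul]

theorem Rep.χ_eq (a : L.Rep n w) (c : L.Δ j n ≠ 0) : w (L.χ j) = L.χ j := by
  obtain ⟨s, hs⟩ := exists_perm' c
  rw [χ, map_sum, ← Equiv.sum_comp s fun p => L.wt p.1]
  exact Finset.sum_congr rfl fun p _ => (ty_iff.1 a _ _ (hs p)).symm

theorem mv_perm (g : G) (s : Equiv.Perm (L.IJ j)) :
    L.mv j g (Subtype.val ∘ s) = Equiv.Perm.sign s * L.Δ j g :=
  det_permute s (of fun p q : L.IJ j => L.ρ g p.1 q.1)

theorem mv_Bm (a : b ∈ L.Bm) {x : L.IJ j → Fin L.n} (c : L.mv j b x ≠ 0) :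
    (∃ s : Equiv.Perm (L.IJ j), x = Subtype.val ∘ s) ∨ ∑ p, L.wt (x p) + L.R.α j ≤ L.χ j := by
  obtain ⟨s, hs⟩ := exists_perm' c
  have h1 : ∀ q, L.wt (x (s q)) ≤ L.wt q.1 := fun q => sub_nonpos.1 (sup_iff.1 a _ _ (hs q))
  by_cases e : ∀ q, 0 < L.wt (x q) j
  · exact Or.inl ⟨Equiv.ofBijective (fun q => ⟨x q, e q⟩) (Finite.injective_iff_bijective.1
      fun p q d => by_contra fun f => c (det_zero_of_row_eq f (funext fun y => by
        rw [of_apply, of_apply, show x p = x q from congrArg Subtype.val d]))), rfl⟩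
  obtain ⟨q, hq⟩ := not_forall.1 e
  refine Or.inr fun i => ?_
  rw [← Equiv.sum_comp s, χ, Pi.add_apply, Finset.sum_apply, Finset.sum_apply]
  by_cases d : i = j
  · subst d
    rw [RS.α_self]
    exact Finset.sum_lt_sum (fun p _ => h1 p i) ⟨s.symm q, Finset.mem_univ _, by
      rw [Equiv.apply_symm_apply]
      exact (not_lt.1 hq).trans_lt (s.symm q).2⟩
  · rw [RS.α_ne d, add_zero]
    exact Finset.sum_le_sum fun p _ => h1 p i

namespace Ok

variable (H : L.Ok)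
include H

theorem χ_self (j : Fin L.R.r) : 0 < L.χ j j := by
  have : Nonempty (L.IJ j) := by
    by_contra c
    have h1 : ∀ a, L.wt a = 0 := fun a => P092TS.eq_zero_of_pr H.root (h := -Pi.single j 1)
      (by simp) fun w hw => by
        obtain ⟨n, -, e⟩ := H.exists_rep hw
        obtain ⟨s, hs⟩ := e.exists_perm
        rw [← hs, pr_neg', pr_single', neg_nonneg, Int.cast_nonpos]
        exact not_lt.1 fun d => c ⟨⟨_, d⟩⟩
    obtain ⟨a, b, e⟩ := H.exists_wt_α j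
    have := congrFun e j
    simp [h1, RS.α_self] at this
    exact H.npos.ne (by omega)
  rw [χ, Finset.sum_apply]
  exact Finset.sum_pos (fun p _ => p.2) Finset.univ_nonempty

theorem χ_pr (e : i ≠ j) : L.R.pr (L.χ j) i = 0 := by
  have := (H.rep_nn i).χ_eq (j := j) (Δ_ne (Z_le_P _ (LJ_le_Z _ (GJ_le_LJ _ (H.nn_mem
    (Pi.single_eq_of_ne e _))))))
  rw [H.root.sE_eq, sub_eq_self] at this
  simpa [RS.α_self] using congrFun this i

theorem χ_pr_pos (j : Fin L.R.r) : 0 < L.R.pr (L.χ j) j :=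
  pr_pos_of H.root (H.χ_self j) fun _ => H.χ_pr

theorem χ_pos (j i : Fin L.R.r) : 0 < L.χ j i :=
  pos_of_dom H.root (fun x => by
    by_cases e : x = j
    · exact e ▸ (H.χ_pr_pos x).le
    · exact (H.χ_pr e).ge) (fun e => (H.χ_self j).ne' (congrFun e j)) i

theorem χ_det : (of fun j i => (L.χ j i : ℝ)).det ≠ 0 := by
  have : (of fun j i => L.χ j i) * L.R.A = diagonal fun j => L.R.pr (L.χ j) j :=
    Matrix.ext fun j i => by
      by_cases e : j = i
      · rw [e, diagonal_apply_eq]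
        rfl
      · rw [diagonal_apply_ne _ e, ← H.χ_pr (Ne.symm e)]
        rfl
  have h2 : (of fun j i => L.χ j i).det ≠ 0 := left_ne_zero_of_mul (b := L.R.A.det) (by
    rw [← det_mul, this, det_diagonal]
    exact (Finset.prod_pos fun j _ => H.χ_pr_pos j).ne')
  rwa [← Int.cast_ne_zero (α := ℝ), Int.cast_det] at h2

theorem rep_Δ (a : L.Rep n w) (hw : w ∈ L.R.W) (c : L.Δ j n ≠ 0) : n ∈ L.Z (Pi.single j 1) :=
  a.mem_Z_of (tw_of_fix H.root (H.χ_self j) (fun _ => H.χ_pr) hw (a.χ_eq c))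

theorem mem_Ω_Δ : g ∈ L.Ω ↔ ∀ j, L.Δ j g ≠ 0 := by
  refine ⟨fun ⟨v, a, z, c, u, d, e⟩ j => by
    rw [e, Δ_cell a d]
    exact Δ_ne (Z0_le_P _ c), fun a => ?_⟩
  obtain ⟨v, c, n, w, d, e, u, f, rfl⟩ := H.birkhoff g
  exact H.Bm_mul_Ω (Um_le_Bm c) (H.B_sub_Ω (mul_mem (mem_B_iff.2 fun j => Z_le_P _
    (H.rep_Δ e d (Δ_cell c f n j ▸ a j))) (Up_le_B f))) |> (mul_assoc v n u ▸ ·)

/-- The stabiliser of the highest weight line. -/
theorem mem_P_of_mv {d : k} (a : L.mv j g = d • L.mv j 1) : g ∈ L.P (Pi.single j 1) := by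
  obtain ⟨u, c, n, w, e, f, u', c', rfl⟩ := H.bruhat0 g
  have h1 := mem_B_iff.1 (Up_le_B c) j
  have h2 := mem_B_iff.1 (Up_le_B c') j
  have h3 := congrArg (P092.H710.Rp.T (L.ρ (u * n * u')⁻¹)) a
  have h4 := congrArg (P092.H710.Rp.T (L.ρ u⁻¹)) a
  rw [map_smul, T_mv, inv_mul_cancel] at h3
  rw [map_smul, T_mv, T_mv, ← mul_assoc, inv_mul_cancel_left, mv_P h2, mul_one, ← one_mul u⁻¹,
    mv_P (inv_mem h1), Δ_Up c', Δ_Up (inv_mem c), one_smul, one_smul] at h4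
  refine mul_mem (mul_mem h1 (Z_le_P _ (H.rep_Δ f e ?_))) h2
  rw [Δ, h4, Pi.smul_apply, ← Δ, Δ_one, smul_eq_mul, mul_one]
  rintro rfl
  exact one_ne_zero ((Δ_one j).symm.trans (by rw [Δ, h3, zero_smul, Pi.zero_apply]))

theorem mem_P_of_Δ {d : k} (a : ∀ x, L.Δ j (g * x) = d * L.Δ j x) : g ∈ L.P (-Pi.single j 1) := by
  obtain ⟨u, c, n, w, e, f, u', c', rfl⟩ := H.bruhat_neg g
  have h1 := mem_Bm_iff.1 (Um_le_Bm c) j
  have h2 := mem_Bm_iff.1 (Um_le_Bm c') j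
  have h3 := a (u * n * u')⁻¹
  have h4 := a u'⁻¹
  rw [mul_inv_cancel, Δ_one] at h3
  rw [mul_inv_cancel_right, Δ_left h1, Δ_Um c, Δ_Um (inv_mem c'), one_mul, mul_one] at h4
  exact mul_mem (mul_mem h1 (Z_le_P _ ((Z_neg _).ge (H.rep_Δ f e
    (h4 ▸ left_ne_zero_of_mul_eq_one h3.symm))))) h2

theorem Δ_σ (j : Fin L.R.r) (t : Fin L.R.r → kˣ) :
    L.Δ j (L.σ t) = ((∏ i, t i ^ L.χ j i : kˣ) : k) := by
  have : (of fun p q : L.IJ j => L.ρ (L.σ t) p.1 q.1) =
      diagonal fun p => ((∏ i, t i ^ L.wt p.1 i : kˣ) : k) := Matrix.ext fun p q => by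
    simp only [H.rho_σ, of_apply, diagonal_apply, Subtype.ext_iff]
  rw [Δ, mv, this, det_diagonal, ← Units.coe_prod, Finset.prod_comm]
  refine congrArg _ (Finset.prod_congr rfl fun i _ => ?_)
  rw [χ, Finset.sum_apply]
  exact Finset.cons_induction (by simp) (fun _ _ _ e => by
    rw [Finset.sum_cons, Finset.prod_cons, _root_.zpow_add, e]) Finset.univ

theorem UJ_conj (a : L.Rep n (L.R.sE i)) (c : u ∈ L.LJ {i}) : u ∈ L.Up ↔ n * u * n⁻¹ ∈ L.Um := by
  refine ⟨fun d => H.Xα_le_Um i (H.sE_conj a (UJ_single i ⟨d, c⟩)), fun d => ?_⟩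
  have h1 := H.rep_LJ a (RS.sE_mem (J := {i}) rfl)
  rw [show u = n⁻¹ * (n * u * n⁻¹) * n⁻¹⁻¹ by group]
  exact (H.root.sE_inv i ▸ a.inv).conj_UD (F' := dPos _)
    (UD_of_PD (F' := dNeg _ ⊓ (dIn {i}).toAddSubsemigroup) d (mul_mem (mul_mem h1 c) (inv_mem h1))
      fun _ e f => ⟨e, f⟩) fun x e => by
        rw [sE_of_In H.root e.2]
        exact neg_pos.2 (mem_dNeg.1 e.1)

theorem le_of_nn {S S' : Subgroup G} (a : L.B ≤ S) (c : L.B ≤ S') (d : ∀ i, L.nn i ∈ S → L.nn i ∈ S') :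
    S ≤ S' := fun g e => by
  obtain ⟨u, h1, n, w, h2, h3, u', h4, rfl⟩ := H.bruhat0 g
  obtain ⟨l, hl, rfl⟩ := H.root.exists_wd (P092TS.rep_mem_WJ H (Up_le_B.trans a) h2 h3
    ((S.mul_mem_cancel_left (a (Up_le_B h1))).1 ((S.mul_mem_cancel_right (a (Up_le_B h4))).1 e)))
  refine mul_mem (mul_mem (c (Up_le_B h1)) ((S'.mul_mem_cancel_right (inv_mem
    (list_prod_mem fun x hx => ?_ : L.nd l ∈ S'))).1 (c (Z0_le_B (h3.div (H.rep_nd l)).1))))
    (c (Up_le_B h4))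
  obtain ⟨i, hi, rfl⟩ := List.mem_map.1 hx
  exact d i (GJ_le (J := {i}) (fun _ f => f ▸ (H.Xα_le_Up i).trans (Up_le_B.trans a))
    (fun _ f => f ▸ hl i hi) (H.nn_mem rfl))

theorem rep_pw (τ : ℕ → Fin L.R.r) (m : ℕ) : 
    L.Rep (pw L.nn τ m) (pw L.R.sE τ m : L.R.Aut) := by
  induction m with
  | zero => exact rep_one.2 (one_mem _)
  | succ m ih => exact ih.mul (H.rep_nn _)

end Ok

end LD

end Vale.Agent.P092GP
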